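import Vale.Agent.P168.StateDefs

/-! Shapes as trees: classes, representatives, and extensions by one replica. -/

open MeasureTheory Finset
open scoped BigOperators

noncomputable section

namespace Vale.Agent.P168.Cascade

open Vale.Agent.P168

variable {r k : ℕ}

/-- The axioms of a tree shape. -/
structure IsTree (v : Shape r k) : Prop where
  diag : ∀ a, v a a = Fin.last r
  symm : ∀ a b, v a b = v b a
  ultra : ∀ a b c, min (v a b) (v b c) ≤ v a c

lemma mem_class {v : Shape r k} {p : ℕ} {a b : Fin k} :
    b ∈ shapeClass v p a ↔ if p ≤ r then p ≤ (v a b).val else b = a := by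
  unfold shapeClass
  split_ifs <;> simp

namespace IsTree

variable {v : Shape r k} (hv : IsTree v)
include hv

lemma self_mem (p : ℕ) (a : Fin k) : a ∈ shapeClass v p a := by
  rw [mem_class, hv.diag]
  split_ifs with h
  · simpa using h
  · rfl

lemma class_eq {p : ℕ} {a b : Fin k} (h : b ∈ shapeClass v p a) :
    shapeClass v p b = shapeClass v p a := by
  rw [mem_class] at h
  ext c
  rw [mem_class, mem_class]
  split_ifs at h ⊢ with hp
  · have h' : p ≤ (v b a).val := by rwa [hv.symm b a]
    constructor
    · intro hc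
      exact le_trans (le_min h hc) (le_trans (le_of_eq (Fin.val_strictMono.monotone.map_min).symm) (hv.ultra a b c))
    · intro hc
      exact le_trans (le_min h' hc) (le_trans (le_of_eq (Fin.val_strictMono.monotone.map_min).symm) (hv.ultra b a c))
  · rw [h]

lemma class_mono {p p' : ℕ} (h : p' ≤ p) (a : Fin k) : shapeClass v p a ⊆ shapeClass v p' a := by
  intro b hb
  rw [mem_class] at hb ⊢
  split_ifs at hb ⊢ with h1 h2
  all_goals first
    | omega
    | exact hb
    | (rw [hb, hv.diag]; simpa)

lemma rep_mem (p : ℕ) (a : Fin k) : shapeRep v p a ∈ shapeClass v p a := by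
  rw [shapeRep, dif_pos ⟨a, hv.self_mem p a⟩]
  exact Finset.min'_mem _ _

lemma rep_le {p : ℕ} {a b : Fin k} (h : b ∈ shapeClass v p a) : shapeRep v p a ≤ b := by
  rw [shapeRep, dif_pos ⟨a, hv.self_mem p a⟩]
  exact Finset.min'_le _ _ h

lemma rep_eq_iff {p : ℕ} {a x : Fin k} (hx : x ∈ shapeClass v p a)
    (hmin : ∀ y ∈ shapeClass v p a, x ≤ y) : shapeRep v p a = x :=
  le_antisymm (hv.rep_le hx) (hmin _ (hv.rep_mem p a))

lemma rep_congr {p : ℕ} {a b : Fin k} (h : b ∈ shapeClass v p a) :
    shapeRep v p b = shapeRep v p a :=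
  hv.rep_eq_iff (by rw [hv.class_eq h]; exact hv.rep_mem p a)
    fun y hy => hv.rep_le (by rwa [hv.class_eq h] at hy)

lemma rep_rep (p : ℕ) (a : Fin k) : shapeRep v p (shapeRep v p a) = shapeRep v p a :=
  hv.rep_congr (hv.rep_mem p a)

lemma rep_singleton {p : ℕ} (hp : r < p) (a : Fin k) : shapeRep v p a = a := by
  have h := hv.rep_mem p a
  rwa [mem_class, if_neg (by omega)] at h

end IsTree

/-- The representatives of level `p`. -/
def reps (v : Shape r k) (p : ℕ) : Finset (Fin k) := univ.filter fun a => shapeRep v p a = a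

/-- The number of classes of level `p + 1` inside the class of `a` at level `p`. -/
def kids (v : Shape r k) (p : ℕ) (a : Fin k) : ℕ :=
  ((shapeClass v p a).image (shapeClass v (p + 1))).card

/-- The coefficient of the node of level `p` above `a`. -/
def coef (m : Fin r → ℝ) (v : Shape r k) (p : ℕ) (a : Fin k) : ℝ :=
  (kids v p a : ℝ) * padded m (p + 1) - padded m p

lemma IsTree.sum_kids {v : Shape r k} (hv : IsTree v) (p : ℕ) (d : Fin k → ℝ)
    (hd : ∀ a b, b ∈ shapeClass v p a → d b = d a) :
    ∑ a ∈ reps v p, (kids v p a : ℝ) * d a = ∑ b ∈ reps v (p + 1), d b := by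
  conv_rhs => rw [← Finset.sum_fiberwise_of_maps_to (t := reps v p) (g := shapeRep v p)
    (fun b _ => by simp [reps, hv.rep_rep])]
  refine Finset.sum_congr rfl fun a ha => ?_
  have ha' : shapeRep v p a = a := by simpa [reps] using ha
  have hmem : ∀ b, shapeRep v p b = a ↔ b ∈ shapeClass v p a := fun b =>
    ⟨fun h => by
      have h1 := hv.rep_mem p b
      rw [h] at h1
      rw [hv.class_eq h1]
      exact hv.self_mem p b, fun h => by rw [hv.rep_congr h, ha']⟩
  symm
  trans ∑ _b ∈ (reps v (p + 1)).filter (fun b => shapeRep v p b = a), d a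
  · exact Finset.sum_congr rfl fun b hb => hd a b ((hmem b).1 (Finset.mem_filter.1 hb).2)
  rw [Finset.sum_const, nsmul_eq_mul]
  congr 2
  unfold kids
  rw [← Finset.card_image_of_injOn (f := shapeClass v (p + 1))
    (s := (reps v (p + 1)).filter fun b => shapeRep v p b = a) fun b hb c hc h => ?_]
  · congr 1
    ext s
    simp only [Finset.mem_image, Finset.mem_filter]
    refine ⟨?_, ?_⟩
    rotate_left
    · rintro ⟨b, hb, rfl⟩
      refine ⟨shapeRep v (p + 1) b, ⟨by simp [reps, hv.rep_rep], ?_⟩,
        hv.class_eq (hv.rep_mem _ b)⟩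
      rw [hv.rep_congr (hv.class_mono (Nat.le_succ p) b (hv.rep_mem _ b))]
      exact (hmem b).2 hb
    · rintro ⟨b, ⟨_, hb⟩, rfl⟩
      exact ⟨b, (hmem b).1 hb, rfl⟩
  · simp only [reps, Finset.coe_filter, Set.mem_ofPred_eq, Finset.mem_filter, Finset.mem_univ,
      true_and] at hb hc
    rw [← hb.1, ← hc.1]
    simp only [shapeRep, h]
    rw [dif_pos ⟨b, h ▸ hv.self_mem _ b⟩, dif_pos ⟨b, h ▸ hv.self_mem _ b⟩]

lemma padded_succ (m : Fin r → ℝ) (p : Fin r) : padded m (p.val + 1) = m p := by
  simp [padded, p.isLt]

lemma padded_top (m : Fin r → ℝ) : padded m (r + 1) = 1 := by simp [padded]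

lemma padded_zero (m : Fin r → ℝ) : padded m 0 = 0 := by simp [padded]

/-- Summation by parts over the nodes of a tree. -/
lemma IsTree.nodes_identity {v : Shape r k} (hv : IsTree v) (m : Fin r → ℝ)
    (d : ℕ → Fin k → ℝ) (hd : ∀ p a b, b ∈ shapeClass v p a → d p b = d p a) :
    (∑ p : Fin r, ∑ a ∈ reps v (p.val + 1), m p * (d (p.val + 1) a - d p.val a)) - ∑ a, d r a =
      -∑ q : Fin (r + 1), ∑ a ∈ reps v q.val, coef m v q.val a * d q.val a := by
  have h : ∀ q : Fin (r + 1), ∑ a ∈ reps v q.val, coef m v q.val a * d q.val a =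
      padded m (q.val + 1) * (∑ a ∈ reps v (q.val + 1), d q.val a) -
        padded m q.val * ∑ a ∈ reps v q.val, d q.val a := by
    intro q
    rw [← hv.sum_kids q.val (d q.val) (hd _), Finset.mul_sum, Finset.mul_sum,
      ← Finset.sum_sub_distrib]
    exact Finset.sum_congr rfl fun a _ => by simp only [coef]; ring
  simp only [h, Finset.sum_sub_distrib]
  rw [Fin.sum_univ_castSucc (fun q : Fin (r + 1) =>
      padded m (q.val + 1) * ∑ a ∈ reps v (q.val + 1), d q.val a),
    Fin.sum_univ_succ (fun q : Fin (r + 1) => padded m q.val * ∑ a ∈ reps v q.val, d q.val a)]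
  simp only [Fin.val_castSucc, Fin.val_last, Fin.val_zero, Fin.val_succ, padded_succ, padded_top,
    padded_zero, zero_mul, zero_add, one_mul]
  have htop : reps v (r + 1) = univ :=
    Finset.filter_true_of_mem fun a _ => hv.rep_singleton (Nat.lt_succ_self r) a
  rw [htop]
  simp only [mul_sub, Finset.sum_sub_distrib, ← Finset.mul_sum]
  ring

/-- Attaching one replica at the node of level `q` above `a`. -/
def attach (v : Shape r k) (q : Fin (r + 1)) (a : Fin k) : Shape r (k + 1) := fun x =>
  Fin.lastCases (motive := fun _ => Fin (k + 1) → Fin (r + 1))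
    (fun y => Fin.lastCases (motive := fun _ => Fin (r + 1)) (Fin.last r)
      (fun b => min q (v a b)) y)
    (fun c y => Fin.lastCases (motive := fun _ => Fin (r + 1)) (min q (v a c)) (fun b => v c b) y) x

variable (v : Shape r k) (q : Fin (r + 1)) (a : Fin k)

@[simp] lemma attach_old (b c : Fin k) : attach v q a b.castSucc c.castSucc = v b c := by
  simp [attach]

@[simp] lemma attach_new (b : Fin k) : attach v q a (Fin.last k) b.castSucc = min q (v a b) := by
  simp [attach]

@[simp] lemma attach_new' (b : Fin k) : attach v q a b.castSucc (Fin.last k) = min q (v a b) := by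
  simp [attach]

@[simp] lemma attach_last : attach v q a (Fin.last k) (Fin.last k) = Fin.last r := by
  simp [attach]

lemma shapeInit_attach : shapeInit (attach v q a) = v := by
  funext b c
  simp [shapeInit]

variable {v q a}

lemma IsTree.attach (hv : IsTree v) : IsTree (attach v q a) := by
  refine ⟨fun x => ?_, fun x y => ?_, fun x y z => ?_⟩
  · induction x using Fin.lastCases <;> simp [hv.diag]
  · induction x using Fin.lastCases <;> induction y using Fin.lastCases <;> simp [hv.symm]
  · induction x using Fin.lastCases <;> induction y using Fin.lastCases <;>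
      induction z using Fin.lastCases
    all_goals simp only [attach_old, attach_new, attach_new', attach_last]
    · exact Fin.le_last _ |>.trans' (min_le_left _ _)
    all_goals try exact Fin.le_last _
    all_goals try exact min_le_left _ _
    all_goals try exact min_le_right _ _
    · next b c =>
      have := hv.ultra a b c
      simp only [Fin.le_def, Fin.val_strictMono.monotone.map_min] at this ⊢
      omega
    · next b c =>
      have := hv.ultra b a c
      rw [hv.symm b a] at this
      simp only [Fin.le_def, Fin.val_strictMono.monotone.map_min] at this ⊢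
      omega
    · next b c =>
      have := hv.ultra a c b
      rw [hv.symm c b] at this
      simp only [Fin.le_def, Fin.val_strictMono.monotone.map_min] at this ⊢
      omega
    · next b c d => exact hv.ultra _ _ _

/-- The value at the last replica determines an attachment. -/
lemma attach_eq {v' : Shape r (k + 1)} (hd : v' (Fin.last k) (Fin.last k) = Fin.last r)
    (hi : shapeInit v' = v) (h : ∀ b : Fin k,
      v' (Fin.last k) b.castSucc = min q (v a b) ∧ v' b.castSucc (Fin.last k) = min q (v a b)) :
    v' = Cascade.attach v q a := by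
  funext x y
  induction x using Fin.lastCases <;> induction y using Fin.lastCases
  · simp [hd]
  · simp [(h _).1]
  · simp [(h _).2]
  · rw [attach_old, ← hi]; rfl

lemma IsTree.rep_attach_old (hv : IsTree v) (p : ℕ) (b : Fin k) :
    shapeRep (Cascade.attach v q a) p b.castSucc = (shapeRep v p b).castSucc := by
  refine hv.attach.rep_eq_iff ?_ fun y hy => ?_
  · have h := hv.rep_mem p b
    rw [mem_class] at h ⊢
    split_ifs at h ⊢
    · simpa using h
    · rw [h]
  · induction y using Fin.lastCases with
    | last => exact Fin.le_last _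
    | cast c =>
      refine Fin.castSucc_le_castSucc_iff.2 (hv.rep_le ?_)
      rw [mem_class] at hy ⊢
      split_ifs at hy ⊢
      · simpa using hy
      · simpa using hy

lemma IsTree.rep_attach_new (hv : IsTree v) (p : ℕ) :
    shapeRep (Cascade.attach v q a) p (Fin.last k) =
      if p ≤ q.val then (shapeRep v p a).castSucc else Fin.last k := by
  have hq : q.val ≤ r := Nat.le_of_lt_succ q.isLt
  split_ifs with hp
  · rw [← hv.rep_attach_old (q := q) (a := a)]
    refine hv.attach.rep_congr ?_
    rw [mem_class, if_pos (hp.trans hq)]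
    simpa [hv.diag] using ⟨hp, hp.trans hq⟩
  · refine hv.attach.rep_eq_iff (hv.attach.self_mem _ _) fun y hy => ?_
    induction y using Fin.lastCases with
    | last => exact le_rfl
    | cast c =>
      exfalso
      rw [mem_class] at hy
      split_ifs at hy
      · simp only [attach_new, Fin.val_strictMono.monotone.map_min] at hy; omega
      · exact (Fin.castSucc_lt_last c).ne hy

lemma IsTree.reps_attach (hv : IsTree v) (p : ℕ) (F : Fin (k + 1) → ℝ) :
    ∑ x ∈ reps (Cascade.attach v q a) p, F x =
      (∑ b ∈ reps v p, F b.castSucc) + if q.val < p then F (Fin.last k) else 0 := by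
  simp only [reps, Finset.sum_filter]
  rw [Fin.sum_univ_castSucc]
  simp only [hv.rep_attach_old, hv.rep_attach_new, Fin.castSucc_inj]
  congr 1
  by_cases h : p ≤ q.val
  · simp [h, (Fin.castSucc_lt_last _).ne, not_lt.2 h]
  · simp [h, not_le.1 h]

lemma IsTree.extProb_attach (hv : IsTree v) (m : Fin r → ℝ) :
    extProb m (Cascade.attach v q a) = coef m v q.val a / k := by
  have hk : k ≠ 0 := (Fin.pos a).ne'
  have hex : ∃ ls : Fin k, ∀ l : Fin k,
      Cascade.attach v q a (Fin.last k) l.castSucc =
        min (Cascade.attach v q a (Fin.last k) ls.castSucc)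
          (shapeInit (Cascade.attach v q a) ls l) ∧
      Cascade.attach v q a l.castSucc (Fin.last k) = Cascade.attach v q a (Fin.last k) l.castSucc :=
    ⟨a, fun l => by simp [shapeInit_attach, hv.diag, Fin.le_last]⟩
  unfold extProb
  rw [if_pos (attach_last v q a), if_neg hk, dif_pos hex]
  have hs := (hex.choose_spec a).1
  generalize hex.choose = ls at hs ⊢
  simp only [shapeInit_attach, attach_new, hv.diag, min_eq_left (Fin.le_last q)] at hs ⊢
  -- the chosen replica is in the class of `a`
  have hq : min q (v a ls) = q :=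
    le_antisymm (min_le_left _ _) (hs.le.trans (min_le_left (min q (v a ls)) _))
  have hmem : ls ∈ shapeClass v q.val a := by
    rw [mem_class, if_pos (Nat.le_of_lt_succ q.isLt)]
    exact (min_eq_left_iff.1 hq : q ≤ v a ls)
  rw [hq, hv.class_eq hmem]
  rfl

lemma exists_attach {v' : Shape r (k + 1)} {m : Fin r → ℝ} (hk : k ≠ 0)
    (hv : IsTree (shapeInit v')) (h : extProb m v' ≠ 0) :
    ∃ (q : Fin (r + 1)) (b : Fin k), shapeRep (shapeInit v') q.val b = b ∧
      v' = Cascade.attach (shapeInit v') q b := by
  unfold extProb at h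
  by_cases hd : v' (Fin.last k) (Fin.last k) = Fin.last r
  · rw [if_pos hd, if_neg hk] at h
    by_cases hex : ∃ ls : Fin k, ∀ l : Fin k,
        v' (Fin.last k) l.castSucc = min (v' (Fin.last k) ls.castSucc) (shapeInit v' ls l) ∧
        v' l.castSucc (Fin.last k) = v' (Fin.last k) l.castSucc
    · obtain ⟨ls, hls⟩ := hex
      set q := v' (Fin.last k) ls.castSucc
      refine ⟨q, shapeRep (shapeInit v') q.val ls, hv.rep_rep _ _, attach_eq hd rfl fun l => ?_⟩
      rw [(hls l).2, (hls l).1]
      have hm := hv.rep_mem q.val ls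
      rw [mem_class, if_pos (Nat.le_of_lt_succ q.isLt)] at hm
      have hm' : q ≤ shapeInit v' ls (shapeRep (shapeInit v') q.val ls) := hm
      have h1 := hv.ultra ls (shapeRep (shapeInit v') q.val ls) l
      have h2 := hv.ultra (shapeRep (shapeInit v') q.val ls) ls l
      rw [hv.symm _ ls] at h2
      have e : min q (shapeInit v' ls l) =
          min q (shapeInit v' (shapeRep (shapeInit v') q.val ls) l) :=
        le_antisymm (le_min (min_le_left _ _)
            ((le_min ((min_le_left _ _).trans hm') (min_le_right _ _)).trans h2))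
          (le_min (min_le_left _ _)
            ((le_min ((min_le_left _ _).trans hm') (min_le_right _ _)).trans h1))
      exact ⟨e, e⟩
    · exact absurd (dif_neg hex) h
  · exact absurd (if_neg hd) h

lemma isTree_of_prob : ∀ {k : ℕ} {v : Shape r k} {m : Fin r → ℝ}, shapeProb m k v ≠ 0 → IsTree v
  | 0, _, _, _ => ⟨fun a => a.elim0, fun a => a.elim0, fun a => a.elim0⟩
  | k + 1, v, m, h => by
    have hp := left_ne_zero_of_mul h
    have he := right_ne_zero_of_mul h
    rcases Nat.eq_zero_or_pos k with rfl | hk
    · have hd : v (Fin.last 0) (Fin.last 0) = Fin.last r := by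
        by_contra hd
        exact he (by rw [extProb, if_neg hd])
      have e : ∀ a : Fin 1, a = Fin.last 0 := fun a => Subsingleton.elim _ _
      refine ⟨fun a => by rw [e a, hd], fun a b => by rw [e a, e b], fun a b c => ?_⟩
      rw [e a, e b, e c, min_self]
    · obtain ⟨q, b, _, he⟩ := exists_attach hk.ne' (isTree_of_prob hp) he
      rw [he]
      exact (isTree_of_prob hp).attach

/-- The sum over the extensions of a tree shape. -/
lemma IsTree.sum_extend (hv : IsTree v) (hk : k ≠ 0) (m : Fin r → ℝ) (F : Shape r (k + 1) → ℝ) :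
    ∑ v' ∈ univ.filter (fun v' => shapeInit v' = v), extProb m v' * F v' =
      ∑ q : Fin (r + 1), ∑ b ∈ reps v q.val, coef m v q.val b / k * F (Cascade.attach v q b) := by
  rw [Finset.sum_sigma' univ (fun q : Fin (r + 1) => reps v q.val)]
  refine (Finset.sum_of_injOn (fun x : (_ : Fin (r + 1)) × Fin k => Cascade.attach v x.1 x.2)
    ?_ ?_ ?_ ?_).symm
  · rintro ⟨q, b⟩ hb ⟨q', b'⟩ hb' h
    simp only [Finset.coe_sigma, Finset.coe_univ, Set.mem_sigma_iff, Set.mem_univ, true_and,
      Finset.mem_coe, reps, Finset.mem_filter, Finset.mem_univ] at hb hb'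
    have h1 := congrFun₂ h (Fin.last k) b.castSucc
    have h2 := congrFun₂ h (Fin.last k) b'.castSucc
    simp only [attach_new, hv.diag, min_eq_left (Fin.le_last _)] at h1 h2
    have hqq : q = q' :=
      le_antisymm (h1 ▸ min_le_left _ _) (h2 ▸ min_le_left _ _)
    subst hqq
    have hmem : b ∈ shapeClass v q.val b' := by
      rw [mem_class, if_pos (Nat.le_of_lt_succ q.isLt)]
      exact (min_eq_left_iff.1 h1.symm : q ≤ v b' b)
    rw [← hb, ← hb', hv.rep_congr hmem]
  · intro x _
    simp [shapeInit_attach]
  · intro v' hv' hnot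
    have hi : shapeInit v' = v := (Finset.mem_filter.1 hv').2
    by_contra h
    obtain ⟨q, b, hb, he⟩ := exists_attach hk (by rwa [hi]) (left_ne_zero_of_mul h)
    rw [hi] at hb he
    exact hnot ⟨⟨q, b⟩, by simp [reps, hb], he.symm⟩
  · intro x hx
    simp [hv.extProb_attach]

end Vale.Agent.P168.Cascade
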