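import Vale.Agent.P168.Cascade.Laplace

/-! The logarithm of a cascade average. -/

open MeasureTheory ProbabilityTheory Filter Topology Set
open scoped BigOperators NNReal ENNReal

noncomputable section

namespace Vale.Agent.P168.Cascade

open Vale.Agent.P168

lemma frullani_exp {a b : ℝ} (ha : 0 < a) (hb : 0 < b) :
    IntegrableOn (fun u => u⁻¹ * (Real.exp (-(a * u)) - Real.exp (-(b * u)))) (Ioi 0) ∧
      ∫ u in Ioi 0, u⁻¹ * (Real.exp (-(a * u)) - Real.exp (-(b * u))) = Real.log (b / a) := by
  have hi : IntegrableOn (fun u => u⁻¹ * (Real.exp (-(a * u)) - Real.exp (-(b * u)))) (Ioi 0) := by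
    refine ((exp_neg_integrableOn_Ioi 0 (lt_min ha hb)).const_mul |b - a|).mono'
      (measurable_id.inv.mul ((measurable_const.mul measurable_id).neg.exp.sub
        (measurable_const.mul measurable_id).neg.exp)).aestronglyMeasurable ?_
    filter_upwards [ae_restrict_mem measurableSet_Ioi] with u (hu : 0 < u)
    rw [Real.norm_eq_abs, abs_mul, abs_inv, abs_of_pos hu, inv_mul_le_iff₀ hu]
    have key : ∀ c d : ℝ, c ≤ d → |Real.exp (-(c * u)) - Real.exp (-(d * u))| ≤
        u * ((d - c) * Real.exp (-c * u)) := by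
      intro c d hcd
      have h1 : Real.exp (-(d * u)) = Real.exp (-(c * u)) * Real.exp (-((d - c) * u)) := by
        rw [← Real.exp_add]; ring_nf
      have h2 := Real.one_sub_le_exp_neg ((d - c) * u)
      have h3 : Real.exp (-((d - c) * u)) ≤ 1 :=
        Real.exp_le_one_iff.2 (neg_nonpos.2 (mul_nonneg (by linarith) hu.le))
      rw [h1, abs_le, show -c * u = -(c * u) by ring]
      constructor <;> nlinarith [Real.exp_pos (-(c * u))]
    rcases le_total a b with h | h
    · rw [min_eq_left h, abs_of_nonneg (sub_nonneg.2 h : (0 : ℝ) ≤ b - a)]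
      exact key a b h
    · rw [min_eq_right h, abs_sub_comm, abs_sub_comm b a,
        abs_of_nonneg (sub_nonneg.2 h : (0 : ℝ) ≤ a - b)]
      exact key b a h
  refine ⟨hi, ?_⟩
  have hc : Continuous fun x : ℝ => Real.exp (-x) := continuous_neg.rexp
  have h := Frullani.integral_Ioi_eq (f := fun x : ℝ => Real.exp (-x)) (L := 1) (R := 0)
    (hc.continuousOn.locallyIntegrableOn measurableSet_Ioi) ha hb
    (tendsto_nhdsWithin_of_tendsto_nhds (by simpa using hc.tendsto 0))
    Real.tendsto_exp_neg_atTop_nhds_zero hi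
  simpa using h

/-- Dominating function on the half line. -/
def bdf (p a D u : ℝ) : ℝ := min (a * u ^ (p - 1)) (D * u ^ (-2 : ℝ))

lemma integrableOn_bdf {p a D : ℝ} (hp : 0 < p) (ha : 0 ≤ a) (hD : 0 ≤ D) :
    IntegrableOn (bdf p a D) (Ioi 0) := by
  have hm : Measurable (bdf p a D) :=
    (measurable_const.mul (measurable_id.pow_const _)).min
      (measurable_const.mul (measurable_id.pow_const _))
  have h0 : ∀ u : ℝ, 0 < u → 0 ≤ bdf p a D u := fun u hu => le_min
    (mul_nonneg ha (Real.rpow_nonneg hu.le _)) (mul_nonneg hD (Real.rpow_nonneg hu.le _))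
  rw [← Ioc_union_Ioi_eq_Ioi (zero_le_one : (0 : ℝ) ≤ 1)]
  refine IntegrableOn.union ?_ ?_
  · refine ((((intervalIntegrable_iff_integrableOn_Ioc_of_le zero_le_one).1
      (intervalIntegral.intervalIntegrable_rpow' (r := p - 1) (by linarith))).const_mul a)).mono'
      hm.aestronglyMeasurable ?_
    filter_upwards [ae_restrict_mem measurableSet_Ioc] with u hu
    rw [Real.norm_eq_abs, abs_of_nonneg (h0 u hu.1)]
    exact min_le_left _ _
  · refine ((integrableOn_Ioi_rpow_of_lt (show (-2 : ℝ) < -1 by norm_num) one_pos).const_mul D).mono'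
      hm.aestronglyMeasurable ?_
    filter_upwards [ae_restrict_mem measurableSet_Ioi] with u (hu : 1 < u)
    rw [Real.norm_eq_abs, abs_of_nonneg (h0 u (zero_lt_one.trans hu))]
    exact min_le_right _ _

lemma le_bdf {p a D u x : ℝ} (hu : 0 < u) (h1 : x ≤ a * u ^ p) (h2 : x ≤ D / u) :
    x / u ≤ bdf p a D u := by
  refine le_min ?_ ?_
  · rw [div_le_iff₀ hu, Real.rpow_sub hu, Real.rpow_one]
    field_simp
    linarith
  · rw [div_le_iff₀ hu, Real.rpow_neg hu.le, Real.rpow_two]
    calc x ≤ D / u := h2
      _ = D * (u ^ 2)⁻¹ * u := by field_simp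

theorem cascadeLog : CascadeLogStmt := by
  intro β _ ν _ r m hpos hlt hmono Y C hC hY hYb
  have hm : Exps m := ⟨hpos, hlt, hmono⟩
  refine CLim.tendsto ?_
  set p := top m
  have hp : 0 < p := hm.top_pos
  obtain ⟨a, D, ha, hD, hbd⟩ := exists_bounds ν hm hC
  obtain ⟨a₁, D₁, ha₁, hD₁, hbd₁⟩ := exists_bounds ν hm (C := 1) one_pos
  have hY0 : ∀ ω, 0 ≤ Y ω := fun ω => (inv_nonneg.2 hC.le).trans (hYb ω).1
  set bd := bdf p (a + a₁) (D + D₁) with hbd'
  have hbdi : IntegrableOn bd (Ioi 0) :=
    integrableOn_bdf hp (by positivity) (by positivity)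
  -- the finite identity
  have hfin : ∀ n, (∀ i, 0 < n i) → ∫ t, Real.log (cascMean m n Y t) ∂cascLaw ν r n =
      ∫ u in Ioi 0, u⁻¹ * (phi ν m n (fun _ => 1) u - phi ν m n Y u) ∧
      ∀ u, 0 < u → |u⁻¹ * (phi ν m n (fun _ => 1) u - phi ν m n Y u)| ≤ bd u := by
    intro n hn
    obtain ⟨hU, hL⟩ := hbd n hn Y hY hYb
    obtain ⟨hU₁, hL₁⟩ := hbd₁ n hn (fun _ => 1) measurable_const fun _ => by simp
    set S1 := fun t => cascSum r m n (fun _ => 1) t
    set SY := fun t => cascSum r m n Y t
    set F : ℝ → CascTree β r n → ℝ := fun u t =>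
      u⁻¹ * (Real.exp (-(u * S1 t)) - Real.exp (-(u * SY t))) with hF
    have hFm : Measurable (Function.uncurry F) :=
      measurable_fst.inv.mul (((measurable_fst.mul ((measurable_cascSum m n
        measurable_const).comp measurable_snd)).neg.exp).sub
        ((measurable_fst.mul ((measurable_cascSum m n hY).comp measurable_snd)).neg.exp))
    have hi1 : ∀ u, 0 ≤ u → Integrable (fun t => Real.exp (-(u * S1 t))) (cascLaw ν r n) :=
      fun u hu => integrable_exp_cascSum ν m n measurable_const (fun _ => zero_le_one) hu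
    have hiY : ∀ u, 0 ≤ u → Integrable (fun t => Real.exp (-(u * SY t))) (cascLaw ν r n) :=
      fun u hu => integrable_exp_cascSum ν m n hY hY0 hu
    have hpt : ∀ u, 0 < u → ∫ t, |F u t| ∂cascLaw ν r n ≤ bd u := by
      intro u hu
      simp only [hF, abs_mul, abs_inv, abs_of_pos hu]
      rw [integral_const_mul, ← div_eq_inv_mul]
      have e1 : ∀ᵐ t ∂cascLaw ν r n, Real.exp (-(u * S1 t)) ≤ 1 ∧ Real.exp (-(u * SY t)) ≤ 1 :=
        (ae_good ν r n).mono fun t ht =>
          ⟨exp_le_one (fun _ => zero_le_one) hu.le ht, exp_le_one hY0 hu.le ht⟩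
      have hA : Integrable (fun t => 1 - Real.exp (-(u * S1 t))) (cascLaw ν r n) :=
        (integrable_const _).sub (hi1 u hu.le)
      have hB : Integrable (fun t => 1 - Real.exp (-(u * SY t))) (cascLaw ν r n) :=
        (integrable_const _).sub (hiY u hu.le)
      have hup : ∫ t, |Real.exp (-(u * S1 t)) - Real.exp (-(u * SY t))| ∂cascLaw ν r n ≤
          (1 - phi ν m n (fun _ => 1) u) + (1 - phi ν m n Y u) := by
        calc _ ≤ ∫ t, ((1 - Real.exp (-(u * S1 t))) + (1 - Real.exp (-(u * SY t))))
              ∂cascLaw ν r n :=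
            integral_mono_ae ((hi1 u hu.le).sub (hiY u hu.le)).abs (hA.add hB)
              (e1.mono fun t ht => abs_le.2
                ⟨by simp only [Pi.sub_apply, Pi.add_apply]; linarith [ht.1, ht.2],
                  by simp only [Pi.sub_apply, Pi.add_apply]; linarith [ht.1, ht.2]⟩)
          _ = _ := by
            rw [integral_add hA hB, integral_sub (integrable_const _) (hi1 u hu.le),
              integral_sub (integrable_const _) (hiY u hu.le)]
            simp [phi, S1, SY]
      have hdn : ∫ t, |Real.exp (-(u * S1 t)) - Real.exp (-(u * SY t))| ∂cascLaw ν r n ≤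
          phi ν m n (fun _ => 1) u + phi ν m n Y u := by
        calc _ ≤ ∫ t, (Real.exp (-(u * S1 t)) + Real.exp (-(u * SY t))) ∂cascLaw ν r n :=
            integral_mono ((hi1 u hu.le).sub (hiY u hu.le)).abs ((hi1 u hu.le).add (hiY u hu.le))
              fun t => abs_le.2 ⟨by simp only [Pi.sub_apply, Pi.add_apply]; linarith [Real.exp_pos (-(u * S1 t)), Real.exp_pos (-(u * SY t))],
                by simp only [Pi.sub_apply, Pi.add_apply]; linarith [Real.exp_pos (-(u * S1 t)), Real.exp_pos (-(u * SY t))]⟩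
          _ = _ := integral_add (hi1 u hu.le) (hiY u hu.le)
      exact le_bdf hu (hup.trans (by rw [add_mul]; linarith [hU u hu.le, hU₁ u hu.le]))
        (hdn.trans (by rw [add_div]; linarith [hL u hu, hL₁ u hu]))
    have hsec : ∀ u, 0 < u → Integrable (F u) (cascLaw ν r n) := fun u hu =>
      ((hi1 u hu.le).sub (hiY u hu.le)).const_mul u⁻¹
    have hint : Integrable (Function.uncurry F)
        ((volume.restrict (Ioi (0 : ℝ))).prod (cascLaw ν r n)) := by
      rw [integrable_prod_iff hFm.aestronglyMeasurable]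
      refine ⟨?_, hbdi.mono' ?_ ?_⟩
      · filter_upwards [ae_restrict_mem measurableSet_Ioi] with u hu using hsec u hu
      · exact (hFm.norm.stronglyMeasurable.integral_prod_right').aestronglyMeasurable
      · filter_upwards [ae_restrict_mem measurableSet_Ioi] with u hu
        rw [Real.norm_eq_abs, abs_of_nonneg (integral_nonneg fun _ => norm_nonneg _)]
        exact hpt u hu
    have heval : ∀ u, 0 < u →
        ∫ t, F u t ∂cascLaw ν r n = u⁻¹ * (phi ν m n (fun _ => 1) u - phi ν m n Y u) := by
      intro u hu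
      simp only [hF]
      rw [integral_const_mul, integral_sub (hi1 u hu.le) (hiY u hu.le)]
      rfl
    refine ⟨?_, fun u hu => by
      rw [← heval u hu]
      exact abs_integral_le_integral_abs.trans (hpt u hu)⟩
    rw [← setIntegral_congr_fun measurableSet_Ioi fun u hu => heval u hu,
      integral_integral_swap hint]
    refine integral_congr_ae ((ae_good ν r n).mono fun t ht => ?_)
    have h1 : 0 < S1 t := cascSum_one_pos m hn ht
    have h2 : 0 < SY t := by
      have := cascSum_mono (m := m) (Y := fun _ => C⁻¹ * 1) (Y' := Y) (fun ω => by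
        simpa using (hYb ω).1) ht
      rw [cascSum_smul m n (fun _ => 1)] at this
      exact lt_of_lt_of_le (mul_pos (inv_pos.2 hC) h1) this
    simp only [hF, mul_comm _ (S1 t), mul_comm _ (SY t)]
    rw [(frullani_exp h1 h2).2]
    rfl
  -- the limit
  set G := genNested ν m Y
  have hG : 0 < G := (inv_pos.2 hC).trans_le (genNested_mem ν hC hm hY hYb).1
  have hG1 : genNested ν m (fun _ => (1 : ℝ)) = 1 := by
    have := genNested_mem ν (C := 1) one_pos hm (Y := fun _ => (1 : ℝ)) measurable_const
      fun _ => by simp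
    linarith [this.1, this.2, show ((1 : ℝ))⁻¹ = 1 from inv_one]
  set L : ℝ → ℝ := fun u => u⁻¹ *
    (Real.exp (-(kappa m * (1 * u) ^ p)) - Real.exp (-(kappa m * (G * u) ^ p))) with hL
  obtain ⟨_, hLb, hlim⟩ := clim_integral (μ := volume.restrict (Ioi (0 : ℝ)))
    (F := fun n u => u⁻¹ * (phi ν m n (fun _ => 1) u - phi ν m n Y u)) (L := L) hbdi
    (fun n hn => ⟨(measurable_id.inv.mul
      ((measurable_phi ν m n (δ := ℝ) (Y := fun _ _ => (1 : ℝ)) measurable_const measurable_id).sub
        (measurable_phi ν m n (δ := ℝ) (Y := fun _ => Y) (hY.comp measurable_snd)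
          measurable_id))).aestronglyMeasurable,
      by filter_upwards [ae_restrict_mem measurableSet_Ioi] with u hu using (hfin n hn).2 u hu⟩)
    (by
      filter_upwards [ae_restrict_mem measurableSet_Ioi] with u hu
      have h1 := phi_tendsto ν (C := 1) one_pos hm (Y := fun _ => (1 : ℝ)) measurable_const
        (fun _ => by simp) (le_of_lt hu)
      rw [hG1] at h1
      exact (h1.sub (phi_tendsto ν hC hm hY hYb (le_of_lt hu))).const_mul u⁻¹)
  refine (?_ : CLim r _ (∫ u in Ioi 0, L u) → CLim r _ (Real.log G))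
    (hlim.congr fun n hn => ((hfin n hn).1).symm)
  suffices h : ∫ u in Ioi 0, L u = Real.log G by rw [h]; exact id
  have hcont : Continuous fun x : ℝ => Real.exp (-(kappa m * x ^ p)) :=
    ((Real.continuous_rpow_const hp.le).const_mul _).neg.rexp
  have hint : IntegrableOn (fun u => u⁻¹ • (Real.exp (-(kappa m * (1 * u) ^ p)) -
      Real.exp (-(kappa m * (G * u) ^ p)))) (Ioi 0) :=
    hbdi.mono' (measurable_id.inv.smul ((hcont.measurable.comp (measurable_const.mul measurable_id)).sub
      (hcont.measurable.comp (measurable_const.mul measurable_id)))).aestronglyMeasurable hLb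
  have h := Frullani.integral_Ioi_eq (f := fun x : ℝ => Real.exp (-(kappa m * x ^ p))) (L := 1)
    (R := 0) (hcont.continuousOn.locallyIntegrableOn measurableSet_Ioi) one_pos hG
    (tendsto_nhdsWithin_of_tendsto_nhds
      (by simpa [Real.zero_rpow hp.ne'] using hcont.tendsto 0))
    (Real.tendsto_exp_atBot.comp (tendsto_neg_atTop_atBot.comp
      ((tendsto_rpow_atTop hp).const_mul_atTop (kappa_pos hm)))) hint
  simpa [hL, smul_eq_mul] using h

end Vale.Agent.P168.Cascade
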