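import Vale.Agent.P168.Cascade.Deriv
import Vale.Agent.P168.Cascade.Shapes
import Vale.Agent.P168.Cascade.Log

/-! Replica moments of cascade averages, by differentiating in the direction of a new replica. -/

open MeasureTheory ProbabilityTheory Filter Topology Finset
open scoped BigOperators NNReal ENNReal

noncomputable section

namespace Vale.Agent.P168.Cascade

open Vale.Agent.P168

variable {β : Type} [MeasurableSpace β] (ν : Measure β) [IsProbabilityMeasure ν] {r k : ℕ}

/-- The log density of the marks of a tree shape, divided by `∏ Y`. -/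
def logW (m : Fin r → ℝ) (Y : (Fin r → β) → ℝ) (v : Shape r k) (ω : Fin r → Fin k → β) : ℝ :=
  (∑ p : Fin r, ∑ a ∈ reps v (p.val + 1), m p *
      (Real.log (cond ν m Y (p.val + 1) (shapeMarks v ω a)) -
        Real.log (cond ν m Y p.val (shapeMarks v ω a)))) -
    ∑ a, Real.log (Y (shapeMarks v ω a))

/-- The derivative of `logW`. -/
def dlogW (m : Fin r → ℝ) (Y h : (Fin r → β) → ℝ) (v : Shape r k) (ω : Fin r → Fin k → β) : ℝ :=
  (∑ p : Fin r, ∑ a ∈ reps v (p.val + 1), m p *
      (condD ν m Y h (p.val + 1) (shapeMarks v ω a) -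
        condD ν m Y h p.val (shapeMarks v ω a))) -
    ∑ a, condD ν m Y h r (shapeMarks v ω a)

/-- The law of a table of marks. -/
abbrev tableLaw (r k : ℕ) : Measure (Fin r → Fin k → β) :=
  Measure.pi fun _ => Measure.pi fun _ => ν

/-- The limit of the tilted replica moments. -/
def tiltMoment (m : Fin r → ℝ) (Y : (Fin r → β) → ℝ) (g : Fin k → (Fin r → β) → ℝ) : ℝ :=
  ∑ v : Shape r k, shapeProb m k v *
    ∫ ω, Real.exp (logW ν m Y v ω) * ∏ a, g a (shapeMarks v ω a) ∂tableLaw ν r k

lemma measurable_shapeMarks (v : Shape r k) (a : Fin k) :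
    Measurable fun ω : Fin r → Fin k → β => shapeMarks v ω a :=
  measurable_pi_lambda _ fun p =>
    (measurable_pi_apply (shapeRep v (p.val + 1) a)).comp (measurable_pi_apply p)

lemma measurable_logW (m : Fin r → ℝ) {Y : (Fin r → β) → ℝ} (hY : Measurable Y) (v : Shape r k) :
    Measurable (logW ν m Y v) := by
  have h : ∀ i a, Measurable fun ω : Fin r → Fin k → β => cond ν m Y i (shapeMarks v ω a) :=
    fun i a => measurable_cond ν m i (Y := fun _ : Fin r → Fin k → β => Y)
      (hY.comp measurable_snd) (measurable_shapeMarks v a)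
  exact (Finset.measurable_sum _ fun p _ => Finset.measurable_sum _ fun a _ =>
      ((h _ a).log.sub (h _ a).log).const_mul _).sub
    (Finset.measurable_sum _ fun a _ => (hY.comp (measurable_shapeMarks v a)).log)

lemma measurable_dlogW (m : Fin r → ℝ) {Y h : (Fin r → β) → ℝ} (hY : Measurable Y)
    (hh : Measurable h) (v : Shape r k) : Measurable (dlogW ν m Y h v) := by
  have h' : ∀ i a, Measurable fun ω : Fin r → Fin k → β => condD ν m Y h i (shapeMarks v ω a) :=
    fun i a => measurable_condD ν m i (Y := fun _ : Fin r → Fin k → β => Y) (h := fun _ => h)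
      (hY.comp measurable_snd) (hh.comp measurable_snd) (measurable_shapeMarks v a)
  exact (Finset.measurable_sum _ fun p _ => Finset.measurable_sum _ fun a _ =>
      ((h' _ a).sub (h' _ a)).const_mul _).sub (Finset.measurable_sum _ fun a _ => h' r a)

lemma abs_tree_sum_le (m : Fin r → ℝ) (hm : Exps m) (v : Shape r k) {L : ℝ} (hL : 0 ≤ L)
    (f : ℕ → Fin k → ℝ) (g : Fin k → ℝ) (hf : ∀ i a, |f i a| ≤ L) (hg : ∀ a, |g a| ≤ L) :
    |(∑ p : Fin r, ∑ a ∈ reps v (p.val + 1), m p * (f (p.val + 1) a - f p.val a)) - ∑ a, g a| ≤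
      (2 * r + 1) * k * L := by
  have h1 : ∀ p : Fin r, |∑ a ∈ reps v (p.val + 1), m p * (f (p.val + 1) a - f p.val a)| ≤
      k * (2 * L) := by
    intro p
    refine (Finset.abs_sum_le_sum_abs _ _).trans ?_
    calc ∑ a ∈ reps v (p.val + 1), |m p * (f (p.val + 1) a - f p.val a)|
        ≤ ∑ _a ∈ reps v (p.val + 1), 2 * L := Finset.sum_le_sum fun a _ => by
          rw [abs_mul, abs_of_pos (hm.pos p)]
          exact (mul_le_mul (hm.lt_one p).le ((abs_sub _ _).trans (add_le_add (hf _ a) (hf _ a)))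
            (abs_nonneg _) zero_le_one).trans_eq (by ring)
      _ ≤ k * (2 * L) := by
        rw [Finset.sum_const, nsmul_eq_mul]
        gcongr
        exact (Finset.card_le_univ _).trans_eq (Fintype.card_fin k)
  refine (abs_sub _ _).trans ?_
  have h2 := (Finset.abs_sum_le_sum_abs _ _).trans
    (Finset.sum_le_sum fun p (_ : p ∈ (univ : Finset (Fin r))) => h1 p)
  have h3 := (Finset.abs_sum_le_sum_abs g univ).trans
    (Finset.sum_le_sum fun a (_ : a ∈ (univ : Finset (Fin k))) => hg a)
  simp only [Finset.sum_const, Finset.card_univ, Fintype.card_fin, nsmul_eq_mul] at h2 h3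
  linarith

lemma abs_logW_le {C : ℝ} {m : Fin r → ℝ} (hm : Exps m) {Y : (Fin r → β) → ℝ} (hY : Bdd C Y)
    (v : Shape r k) (ω : Fin r → Fin k → β) :
    |logW ν m Y v ω| ≤ (2 * r + 1) * k * |Real.log C| :=
  abs_tree_sum_le m hm v (abs_nonneg _) (fun i a => Real.log (cond ν m Y i (shapeMarks v ω a))) _
    (fun i _ => abs_log_le hY.pos (cond_mem ν hm hY i _).1 (cond_mem ν hm hY i _).2)
    (fun _ => abs_log_le hY.pos (hY.mem _).1 (hY.mem _).2)

lemma abs_dlogW_le {C : ℝ} {m : Fin r → ℝ} (hm : Exps m) {Y h : (Fin r → β) → ℝ} (hY : Bdd C Y)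
    (hhm : Measurable h) (hh : ∀ ω, |h ω| ≤ 1) (v : Shape r k) (ω : Fin r → Fin k → β) :
    |dlogW ν m Y h v ω| ≤ (2 * r + 1) * k * C :=
  abs_tree_sum_le m hm v hY.pos.le (fun i a => condD ν m Y h i (shapeMarks v ω a)) _
    (fun i _ => abs_condD_le ν hm hY hhm hh i _) (fun _ => abs_condD_le ν hm hY hhm hh r _)

omit [MeasurableSpace β] in
lemma shapeMarks_congr {v : Shape r k} (hv : IsTree v) {p : ℕ} {a b : Fin k}
    (h : b ∈ shapeClass v p a) (ω : Fin r → Fin k → β) (i : Fin r) (hi : i.val < p) :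
    shapeMarks v ω b i = shapeMarks v ω a i :=
  congrArg (ω i) (hv.rep_congr (hv.class_mono hi a h))

omit [IsProbabilityMeasure ν] in
lemma dlogW_eq {v : Shape r k} (hv : IsTree v) (m : Fin r → ℝ) (Y h : (Fin r → β) → ℝ)
    (ω : Fin r → Fin k → β) :
    dlogW ν m Y h v ω = -∑ q : Fin (r + 1), ∑ a ∈ reps v q.val,
      coef m v q.val a * condD ν m Y h q.val (shapeMarks v ω a) :=
  hv.nodes_identity m (fun p a => condD ν m Y h p (shapeMarks v ω a))
    fun p _ _ hb => condD_prefix ν m Y h p _ _ fun i hi => shapeMarks_congr hv hb ω i hi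

/-- Adding a column to a table. -/
def tab (ω : Fin r → Fin k → β) (τ : Fin r → β) : Fin r → Fin (k + 1) → β :=
  fun i => Fin.snoc (ω i) (τ i)

lemma measurable_tab :
    Measurable fun z : (Fin r → β) × (Fin r → Fin k → β) => tab z.2 z.1 := by
  refine measurable_pi_lambda _ fun i => measurable_pi_lambda _ fun a => ?_
  induction a using Fin.lastCases with
  | last =>
    simp only [tab, Fin.snoc_last]
    exact (measurable_pi_apply i).comp measurable_fst
  | cast b =>
    simp only [tab, Fin.snoc_castSucc]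
    exact (measurable_pi_apply b).comp ((measurable_pi_apply i).comp measurable_snd)

lemma integral_tab {F : (Fin r → Fin (k + 1) → β) → ℝ} (hF : Measurable F) {B : ℝ}
    (hB : ∀ ω, |F ω| ≤ B) :
    ∫ ω, F ω ∂tableLaw ν r (k + 1) =
      ∫ ω, ∫ τ, F (tab ω τ) ∂(Measure.pi fun _ => ν) ∂tableLaw ν r k := by
  have h1 := measurePreserving_pi
    (fun _ : Fin r => ν.prod (Measure.pi fun _ : Fin k => ν))
    (fun _ : Fin r => Measure.pi fun _ : Fin (k + 1) => ν)
    fun _ => (measurePreserving_piFinSuccAbove (fun _ : Fin (k + 1) => ν) (Fin.last k)).symm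
  have h2 := h1.comp (measurePreserving_arrowProdEquivProdArrow β (Fin k → β) (Fin r)
    (fun _ => ν) fun _ => Measure.pi fun _ => ν).symm
  have h3 : MeasurePreserving (fun z : (Fin r → β) × (Fin r → Fin k → β) => tab z.2 z.1)
      ((Measure.pi fun _ => ν).prod (tableLaw ν r k)) (tableLaw ν r (k + 1)) := by
    refine (congrArg (fun f => MeasurePreserving f _ _) ?_).mp h2
    funext z
    funext i
    simp [tab, MeasurableEquiv.piFinSuccAbove, MeasurableEquiv.arrowProdEquivProdArrow,
      Fin.snocEquiv]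
  rw [← h3.map_eq, integral_map h3.measurable.aemeasurable hF.aestronglyMeasurable]
  exact integral_prod_symm _ (Integrable.of_bound (hF.comp measurable_tab).aestronglyMeasurable B
    (Eventually.of_forall fun _ => by rw [Real.norm_eq_abs]; exact hB _))

variable {v : Shape r k} {q : Fin (r + 1)} {a : Fin k}

omit [MeasurableSpace β] in
lemma marks_attach_old (hv : IsTree v) (ω : Fin r → Fin k → β) (τ : Fin r → β) (b : Fin k) :
    shapeMarks (attach v q a) (tab ω τ) b.castSucc = shapeMarks v ω b := by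
  funext i
  simp [shapeMarks, hv.rep_attach_old, tab]

omit [MeasurableSpace β] in
lemma marks_attach_new (hv : IsTree v) (ω : Fin r → Fin k → β) (τ : Fin r → β) :
    shapeMarks (attach v q a) (tab ω τ) (Fin.last k) = glue q.val (shapeMarks v ω a) τ := by
  funext i
  simp only [shapeMarks, hv.rep_attach_new, glue, Nat.succ_le_iff]
  split_ifs <;> simp [tab]

omit [IsProbabilityMeasure ν] in
lemma logW_attach (hv : IsTree v) (m : Fin r → ℝ) (Y : (Fin r → β) → ℝ)
    (ω : Fin r → Fin k → β) (τ : Fin r → β) :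
    logW ν m Y (attach v q a) (tab ω τ) =
      logW ν m Y v ω + tiltLog ν m Y q.val (glue q.val (shapeMarks v ω a) τ) := by
  simp only [logW, tiltLog, hv.reps_attach, Fin.sum_univ_castSucc (n := k),
    marks_attach_old hv, marks_attach_new hv, Finset.sum_add_distrib, Nat.lt_succ_iff]
  ring

/-- The integrand of `tiltMoment`. -/
def integrand (m : Fin r → ℝ) (Y : (Fin r → β) → ℝ) (g : Fin k → (Fin r → β) → ℝ) (v : Shape r k)
    (ω : Fin r → Fin k → β) : ℝ :=
  Real.exp (logW ν m Y v ω) * ∏ a, g a (shapeMarks v ω a)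

lemma measurable_integrand (m : Fin r → ℝ) {Y : (Fin r → β) → ℝ} (hY : Measurable Y)
    {g : Fin k → (Fin r → β) → ℝ} (hg : ∀ a, Measurable (g a)) (v : Shape r k) :
    Measurable (integrand ν m Y g v) :=
  (measurable_logW ν m hY v).exp.mul
    (Finset.measurable_prod _ fun a _ => (hg a).comp (measurable_shapeMarks v a))

lemma abs_integrand_le {C : ℝ} {m : Fin r → ℝ} (hm : Exps m) {Y : (Fin r → β) → ℝ} (hY : Bdd C Y)
    {g : Fin k → (Fin r → β) → ℝ} (hg : ∀ a ω, |g a ω| ≤ 1) (v : Shape r k)
    (ω : Fin r → Fin k → β) :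
    |integrand ν m Y g v ω| ≤ Real.exp ((2 * r + 1) * k * |Real.log C|) := by
  rw [integrand, abs_mul, abs_of_pos (Real.exp_pos _), Finset.abs_prod]
  exact (mul_le_of_le_one_right (Real.exp_pos _).le
    (Finset.prod_le_one (fun a _ => abs_nonneg _) fun a _ => hg a _)).trans
    (Real.exp_le_exp.2 ((le_abs_self _).trans (abs_logW_le ν hm hY v ω)))

lemma integral_attach {C : ℝ} {m : Fin r → ℝ} (hm : Exps m) (hv : IsTree v)
    {Y h : (Fin r → β) → ℝ} (hY : Bdd C Y) (hhm : Measurable h) (hh : ∀ ω, |h ω| ≤ 1)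
    {g : Fin k → (Fin r → β) → ℝ} (hgm : ∀ a, Measurable (g a)) (hg : ∀ a ω, |g a ω| ≤ 1) :
    ∫ ω, integrand ν m Y (Fin.snoc g h) (attach v q a) ω ∂tableLaw ν r (k + 1) =
      ∫ ω, integrand ν m Y g v ω * condD ν m Y h q.val (shapeMarks v ω a) ∂tableLaw ν r k := by
  have hsm : ∀ b, Measurable ((Fin.snoc g h : Fin (k + 1) → (Fin r → β) → ℝ) b) := fun b => by
    induction b using Fin.lastCases <;> simp [hhm, hgm]
  have hsb : ∀ b ω, |(Fin.snoc g h : Fin (k + 1) → (Fin r → β) → ℝ) b ω| ≤ 1 := fun b => by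
    induction b using Fin.lastCases <;> simp [hh, hg]
  rw [integral_tab ν (measurable_integrand ν m hY.meas hsm _) (abs_integrand_le ν hm hY hsb _)]
  refine integral_congr_ae (Eventually.of_forall fun ω => ?_)
  have he : ∀ τ, integrand ν m Y (Fin.snoc g h) (attach v q a) (tab ω τ) =
      integrand ν m Y g v ω *
        (Real.exp (tiltLog ν m Y q.val (glue q.val (shapeMarks v ω a) τ)) *
          h (glue q.val (shapeMarks v ω a) τ)) := fun τ => by
    simp only [integrand, logW_attach ν hv, Fin.prod_univ_castSucc, Fin.snoc_castSucc,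
      Fin.snoc_last, marks_attach_old hv, marks_attach_new hv, Real.exp_add]
    ring
  simp only [he]
  rw [integral_const_mul, tilt_integral ν hm hY hhm hh _ _ (Nat.le_of_lt_succ q.isLt)]

lemma integrable_node {C : ℝ} {m : Fin r → ℝ} (hm : Exps m) {Y h : (Fin r → β) → ℝ}
    (hY : Bdd C Y) (hhm : Measurable h) (hh : ∀ ω, |h ω| ≤ 1) {g : Fin k → (Fin r → β) → ℝ}
    (hgm : ∀ a, Measurable (g a)) (hg : ∀ a ω, |g a ω| ≤ 1) (v : Shape r k) (c : ℝ) (i : ℕ)
    (b : Fin k) :
    Integrable (fun ω => integrand ν m Y g v ω * (c * condD ν m Y h i (shapeMarks v ω b)))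
      (tableLaw ν r k) := by
  refine Integrable.of_bound ((measurable_integrand ν m hY.meas hgm v).mul
    ((measurable_condD ν m i (Y := fun _ : Fin r → Fin k → β => Y) (h := fun _ => h)
      (hY.meas.comp measurable_snd) (hhm.comp measurable_snd)
      (measurable_shapeMarks v b)).const_mul c)).aestronglyMeasurable
    (Real.exp ((2 * r + 1) * k * |Real.log C|) * (|c| * C)) (Eventually.of_forall fun ω => ?_)
  rw [Real.norm_eq_abs, abs_mul, abs_mul]
  exact mul_le_mul (abs_integrand_le ν hm hY hg v ω)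
    (mul_le_mul_of_nonneg_left (abs_condD_le ν hm hY hhm hh i _) (abs_nonneg _)) (by positivity)
    (Real.exp_pos _).le

/-- The derivative of a tilted moment is the moment with one more replica. -/
lemma hasDerivAt_tiltMoment (hk : k ≠ 0) {m : Fin r → ℝ} (hm : Exps m) {C δ : ℝ} (hδ : 0 < δ)
    {Y h : (Fin r → β) → ℝ} (H : Segment C δ Y h) {g : Fin k → (Fin r → β) → ℝ}
    (hgm : ∀ a, Measurable (g a)) (hg : ∀ a ω, |g a ω| ≤ 1) :
    HasDerivAt (fun x => tiltMoment ν m (fun ω => Y ω + x * h ω) g)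
      (-(k * tiltMoment ν m Y (Fin.snoc g h))) 0 := by
  have h0 : |(0 : ℝ)| < δ := by simpa
  have hY0 : (fun ω => Y ω + 0 * h ω) = Y := by simp
  have hB : Bdd C Y := hY0 ▸ H.bdd 0 h0
  set B := Real.exp ((2 * r + 1) * k * |Real.log C|)
  have hder : ∀ v : Shape r k,
      HasDerivAt (fun x => ∫ ω, integrand ν m (fun ω => Y ω + x * h ω) g v ω ∂tableLaw ν r k)
        (∫ ω, integrand ν m Y g v ω * dlogW ν m Y h v ω ∂tableLaw ν r k) 0 := by
    intro v
    have hbound : ∀ ω x, |x| < δ → ‖integrand ν m (fun ω => Y ω + x * h ω) g v ω *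
        dlogW ν m (fun ω => Y ω + x * h ω) h v ω‖ ≤ B * ((2 * r + 1) * k * C) := fun ω x hx => by
      rw [Real.norm_eq_abs, abs_mul]
      exact mul_le_mul (abs_integrand_le ν hm (H.bdd x hx) hg v ω)
        (abs_dlogW_le ν hm (H.bdd x hx) H.meas H.abs_le v ω) (abs_nonneg _) (Real.exp_pos _).le
    have hdiff : ∀ ω x, |x| < δ →
        HasDerivAt (fun y => integrand ν m (fun ω => Y ω + y * h ω) g v ω)
          (integrand ν m (fun ω => Y ω + x * h ω) g v ω *
            dlogW ν m (fun ω => Y ω + x * h ω) h v ω) x := by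
      intro ω x hx
      have hlog : ∀ i a, HasDerivAt
          (fun y => Real.log (cond ν m (fun ω => Y ω + y * h ω) i (shapeMarks v ω a)))
          (condD ν m (fun ω => Y ω + x * h ω) h i (shapeMarks v ω a)) x :=
        fun i a => hasDerivAt_log_cond ν hm H hx i _
      have hw : HasDerivAt (fun y => logW ν m (fun ω => Y ω + y * h ω) v ω)
          (dlogW ν m (fun ω => Y ω + x * h ω) h v ω) x := by
        refine HasDerivAt.sub (HasDerivAt.fun_sum fun p _ => HasDerivAt.fun_sum fun a _ =>
          ((hlog _ a).sub (hlog _ a)).const_mul _) (HasDerivAt.fun_sum fun a _ => ?_)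
        have := hlog r a
        simp only [cond_self] at this
        exact this
      exact (hw.exp.mul_const _).congr_deriv (by simp only [integrand]; ring)
    obtain ⟨_, hI⟩ := hasDerivAt_integral_of_dominated_loc_of_deriv_le (μ := tableLaw ν r k)
      (x₀ := (0 : ℝ)) (F := fun x ω => integrand ν m (fun ω => Y ω + x * h ω) g v ω)
      (F' := fun x ω => integrand ν m (fun ω => Y ω + x * h ω) g v ω *
        dlogW ν m (fun ω => Y ω + x * h ω) h v ω)
      (bound := fun _ => B * ((2 * r + 1) * k * C)) (ball_nhds h0)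
      (by filter_upwards [ball_nhds h0] with x hx using
        (measurable_integrand ν m (H.bdd x hx).meas hgm v).aestronglyMeasurable)
      (Integrable.of_bound (measurable_integrand ν m (H.bdd 0 h0).meas hgm v).aestronglyMeasurable B
        (Eventually.of_forall fun ω => abs_integrand_le ν hm (H.bdd 0 h0) hg v ω))
      ((measurable_integrand ν m (H.bdd 0 h0).meas hgm v).mul
        (measurable_dlogW ν m (H.bdd 0 h0).meas H.meas v)).aestronglyMeasurable
      (Eventually.of_forall fun ω x hx => hbound ω x hx) (integrable_const _)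
      (Eventually.of_forall fun ω x hx => hdiff ω x hx)
    simpa only [hY0] using hI
  have hsum := HasDerivAt.fun_sum fun v (_ : v ∈ (univ : Finset (Shape r k))) =>
    (hder v).const_mul (shapeProb m k v)
  refine hsum.congr_deriv ?_
  show _ = -((k : ℝ) * ∑ v' : Shape r (k + 1), shapeProb m k (shapeInit v') * extProb m v' *
    ∫ ω, integrand ν m Y (Fin.snoc g h) v' ω ∂tableLaw ν r (k + 1))
  rw [← Finset.sum_fiberwise univ (shapeInit (r := r) (n := k)), Finset.mul_sum,
    ← Finset.sum_neg_distrib]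
  refine Finset.sum_congr rfl fun v _ => ?_
  rw [Finset.sum_congr (g := fun v' => shapeProb m k v * (extProb m v' *
      ∫ ω, integrand ν m Y (Fin.snoc g h) v' ω ∂tableLaw ν r (k + 1))) rfl
    (fun v' hv' => by rw [(Finset.mem_filter.1 hv').2, mul_assoc]), ← Finset.mul_sum]
  by_cases hp : shapeProb m k v = 0
  · simp [hp]
  have hv := isTree_of_prob hp
  rw [hv.sum_extend hk m]
  simp only [integral_attach ν hm hv hB H.meas H.abs_le hgm hg, dlogW_eq ν hv, mul_neg,
    integral_neg, Finset.mul_sum]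
  rw [integral_finsetSum _ fun q _ => integrable_finsetSum _ fun b _ =>
    integrable_node ν hm hB H.meas H.abs_le hgm hg v _ q.val b]
  rw [Finset.mul_sum]
  congr 1
  refine Finset.sum_congr rfl fun q _ => ?_
  rw [integral_finsetSum _ fun b _ => integrable_node ν hm hB H.meas H.abs_le hgm hg v _ q.val b,
    Finset.mul_sum]
  refine Finset.sum_congr rfl fun b _ => ?_
  have : (k : ℝ) ≠ 0 := Nat.cast_ne_zero.2 hk
  simp only [mul_left_comm (integrand ν m Y g v _) (coef m v q.val b), integral_const_mul]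
  field_simp

end Vale.Agent.P168.Cascade
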