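import Vale.Agent.P168.Cascade.Moments

/-! The limit of the replica moments of cascade averages. -/

open MeasureTheory ProbabilityTheory Filter Topology Finset
open scoped BigOperators NNReal ENNReal

noncomputable section

namespace Vale.Agent.P168.Cascade

open Vale.Agent.P168

lemma eventually_pos : ∀ r : ℕ, ∀ᶠ n in cascFilter r, ∀ i, 0 < n i
  | 0 => Eventually.of_forall fun _ i => i.elim0
  | r + 1 => by
    show {n : Fin (r + 1) → ℕ | ∀ i, 0 < n i} ∈
      Filter.bind atTop fun n₀ => (cascFilter r).map (Fin.cons n₀)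
    rw [Filter.mem_bind']
    filter_upwards [eventually_gt_atTop 0] with k hk
    rw [Filter.mem_map]
    filter_upwards [eventually_pos r] with n hn using pos_cons hk hn

/-- A first order coefficient is pinned down by limits along a segment. -/
lemma tendsto_of_expansion {ι : Type*} {l : Filter ι} {u : ℝ → ι → ℝ} {f : ℝ → ℝ} {w : ι → ℝ}
    {d c δ K : ℝ} (hδ : 0 < δ) (hc : c ≠ 0) (hlim : ∀ x, |x| < δ → Tendsto (u x) l (𝓝 (f x)))
    (hexp : ∀ x, |x| < δ → ∀ᶠ n in l, |u x n - u 0 n - x * (c * w n)| ≤ K * x ^ 2)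
    (hf : HasDerivAt f (c * d) 0) : Tendsto w l (𝓝 d) := by
  suffices h : Tendsto (fun n => c * w n) l (𝓝 (c * d)) by
    simpa [← mul_assoc, inv_mul_cancel₀ hc] using h.const_mul c⁻¹
  rw [Metric.tendsto_nhds]
  intro η hη
  have hpos : ∀ᶠ x in 𝓝[>] (0 : ℝ), 0 < x := self_mem_nhdsWithin
  have hlt : ∀ᶠ x in 𝓝[>] (0 : ℝ), |x| < δ :=
    nhdsWithin_le_nhds (ball_nhds (by simpa using hδ))
  have hK : ∀ᶠ x in 𝓝[>] (0 : ℝ), K * x < η / 3 := nhdsWithin_le_nhds
    (((continuous_const.mul continuous_id).tendsto' (0 : ℝ) (0 : ℝ) (mul_zero K)).eventually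
      (gt_mem_nhds (by linarith)))
  have hs : ∀ᶠ x in 𝓝[>] (0 : ℝ), |(f x - f 0) / x - c * d| < η / 3 := by
    have := (Metric.tendsto_nhds.1 (hasDerivAt_iff_tendsto_slope.1 hf) (η / 3) (by linarith))
    refine (this.filter_mono (nhdsWithin_mono 0 fun x (hx : 0 < x) => hx.ne')).mono fun x hx => ?_
    simpa [slope, Real.dist_eq, div_eq_inv_mul] using hx
  obtain ⟨x, ⟨hx, hxδ⟩, hxK, hxs⟩ := ((hpos.and hlt).and (hK.and hs)).exists
  filter_upwards [hexp x hxδ, Metric.tendsto_nhds.1 (hlim x hxδ) (x * (η / 6)) (by positivity),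
    Metric.tendsto_nhds.1 (hlim 0 (by simpa using hδ)) (x * (η / 6)) (by positivity)]
    with n h1 h2 h3
  rw [Real.dist_eq] at h2 h3 ⊢
  set A := f x - f 0 - x * (c * d)
  have hA : |A| ≤ x * (η / 3) := by
    have e : A = x * ((f x - f 0) / x - c * d) := by simp only [A]; field_simp
    rw [e, abs_mul, abs_of_pos hx]
    exact mul_le_mul_of_nonneg_left hxs.le hx.le
  have hxK' : K * x ^ 2 < x * (η / 3) := by nlinarith
  have key : x * |c * w n - c * d| < x * η := by
    rw [← abs_of_pos hx, ← abs_mul, abs_of_pos hx, abs_lt]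
    constructor <;> linarith [abs_le.1 h1, abs_le.1 hA, abs_lt.1 h2, abs_lt.1 h3]
  exact lt_of_mul_lt_mul_left key hx.le

lemma abs_log_one_add_sub_le {y : ℝ} (hy : |y| ≤ 1 / 2) : |Real.log (1 + y) - y| ≤ 2 * y ^ 2 := by
  obtain ⟨h1, h2⟩ := abs_le.1 hy
  have hp : 0 < 1 + y := by linarith
  have ha := Real.log_le_sub_one_of_pos hp
  have hb := Real.one_sub_inv_le_log_of_pos hp
  have e : 1 - (1 + y)⁻¹ = y - y ^ 2 / (1 + y) := by field_simp; ring
  have hd : y ^ 2 / (1 + y) ≤ 2 * y ^ 2 := by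
    rw [div_le_iff₀ hp]; nlinarith [sq_nonneg y]
  exact abs_le.2 ⟨by linarith, by linarith [sq_nonneg y]⟩

lemma exists_pow_expansion (k : ℕ) :
    ∃ K : ℝ, ∀ y : ℝ, |y| ≤ 1 / 2 → |(1 + y)⁻¹ ^ k - 1 + k * y| ≤ K * y ^ 2 := by
  have hw : ∀ j : ℕ, ∃ K : ℝ, 0 ≤ K ∧ ∀ w : ℝ, |w| ≤ 1 → |(1 + w) ^ j - 1 - j * w| ≤ K * w ^ 2 := by
    intro j
    induction j with
    | zero => exact ⟨0, le_rfl, fun w _ => by simp⟩
    | succ j ih =>
      obtain ⟨K, hK, h⟩ := ih
      refine ⟨2 * K + j, by positivity, fun w hw => ?_⟩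
      have e : (1 + w) ^ (j + 1) - 1 - ((j + 1 : ℕ) : ℝ) * w =
          (1 + w) * ((1 + w) ^ j - 1 - j * w) + j * w ^ 2 := by push_cast; ring
      rw [e]
      refine (abs_add_le _ _).trans ?_
      rw [abs_mul, abs_of_nonneg (by positivity : (0 : ℝ) ≤ j * w ^ 2)]
      have h2 : |1 + w| ≤ 2 := by
        obtain ⟨a, b⟩ := abs_le.1 hw
        exact abs_le.2 ⟨by linarith, by linarith⟩
      calc |1 + w| * |(1 + w) ^ j - 1 - j * w| + j * w ^ 2
          ≤ 2 * (K * w ^ 2) + j * w ^ 2 :=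
            add_le_add (mul_le_mul h2 (h w hw) (abs_nonneg _) two_pos.le) le_rfl
        _ = _ := by ring
  obtain ⟨K, hK, h⟩ := hw k
  refine ⟨4 * K + 2 * k, fun y hy => ?_⟩
  obtain ⟨h1, h2⟩ := abs_le.1 hy
  have hp : 0 < 1 + y := by linarith
  set w := (1 + y)⁻¹ - 1
  have hi : (1 + y)⁻¹ ≤ 2 := by rw [inv_le_iff_one_le_mul₀ hp]; linarith
  have e1 : w = -y * (1 + y)⁻¹ := by simp only [w]; field_simp; ring
  have hw2 : |w| ≤ 2 * |y| := by
    rw [e1, abs_mul, abs_neg, abs_of_pos (inv_pos.2 hp), mul_comm 2]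
    exact mul_le_mul_of_nonneg_left hi (abs_nonneg _)
  have hsq : w ^ 2 ≤ 4 * y ^ 2 := by nlinarith [sq_abs w, sq_abs y, abs_nonneg w, abs_nonneg y]
  have e3 : |w + y| ≤ 2 * y ^ 2 := by
    rw [show w + y = y ^ 2 * (1 + y)⁻¹ by simp only [w]; field_simp; ring, abs_mul,
      abs_of_nonneg (sq_nonneg y), abs_of_pos (inv_pos.2 hp), mul_comm 2]
    exact mul_le_mul_of_nonneg_left hi (sq_nonneg _)
  have h' := h w (hw2.trans (by linarith))
  rw [show 1 + w = (1 + y)⁻¹ by simp [w]] at h'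
  rw [show (1 + y)⁻¹ ^ k - 1 + k * y = ((1 + y)⁻¹ ^ k - 1 - k * w) + k * (w + y) by ring]
  refine (abs_add_le _ _).trans ?_
  rw [abs_mul, Nat.abs_cast]
  have hk' : (k : ℝ) * |w + y| ≤ k * (2 * y ^ 2) :=
    mul_le_mul_of_nonneg_left e3 (Nat.cast_nonneg _)
  nlinarith [mul_le_mul_of_nonneg_left hsq hK]

variable {β : Type} [MeasurableSpace β] (ν : Measure β) [IsProbabilityMeasure ν] {r k : ℕ}

/-- The normalised cascade sum of `g` relative to `Y`. -/
def ratio (m : Fin r → ℝ) (n : Fin r → ℕ) (Y g : (Fin r → β) → ℝ) (t : CascTree β r n) : ℝ :=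
  cascSum r m n g t / cascSum r m n Y t

lemma cascSum_pos {C : ℝ} {Y : (Fin r → β) → ℝ} (hY : Bdd C Y) (m : Fin r → ℝ) {n : Fin r → ℕ}
    (hn : ∀ i, 0 < n i) {t : CascTree β r n} (ht : GoodTree r n t) :
    C⁻¹ * cascSum r m n (fun _ => 1) t ≤ cascSum r m n Y t ∧ 0 < cascSum r m n Y t := by
  have h := cascSum_mono (m := m) (Y := fun _ => C⁻¹ * 1) (Y' := Y)
    (fun ω => by simpa using (hY.mem ω).1) ht
  rw [cascSum_smul m n (fun _ => 1)] at h
  exact ⟨h, (mul_pos (inv_pos.2 hY.pos) (cascSum_one_pos m hn ht)).trans_le h⟩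

lemma abs_ratio_le {C : ℝ} {Y g : (Fin r → β) → ℝ} (hY : Bdd C Y) (hg : ∀ ω, |g ω| ≤ 1)
    (m : Fin r → ℝ) {n : Fin r → ℕ} (hn : ∀ i, 0 < n i) {t : CascTree β r n}
    (ht : GoodTree r n t) : |ratio m n Y g t| ≤ C := by
  obtain ⟨h1, h2⟩ := cascSum_pos hY m hn ht
  rw [ratio, abs_div, abs_of_pos h2, div_le_iff₀ h2]
  refine (abs_cascSum_le hg ht).trans ?_
  calc cascSum r m n (fun _ => 1) t = C * (C⁻¹ * cascSum r m n (fun _ => 1) t) := by
        rw [← mul_assoc, mul_inv_cancel₀ hY.pos.ne', one_mul]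
    _ ≤ C * cascSum r m n Y t := mul_le_mul_of_nonneg_left h1 hY.pos.le

lemma integrable_prod_ratio {C : ℝ} {Y : (Fin r → β) → ℝ} (hY : Bdd C Y)
    {g : Fin k → (Fin r → β) → ℝ} (hgm : ∀ a, Measurable (g a)) (hg : ∀ a ω, |g a ω| ≤ 1)
    (m : Fin r → ℝ) {n : Fin r → ℕ} (hn : ∀ i, 0 < n i) :
    Integrable (fun t => ∏ a, ratio m n Y (g a) t) (cascLaw ν r n) := by
  refine Integrable.of_bound (Finset.measurable_prod _ fun a _ =>
    (measurable_cascSum m n (hgm a)).div (measurable_cascSum m n hY.meas)).aestronglyMeasurable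
    (C ^ k) ((ae_good ν r n).mono fun t ht => ?_)
  rw [Real.norm_eq_abs, Finset.abs_prod]
  exact (Finset.prod_le_prod (fun a _ => abs_nonneg _)
    fun a _ => abs_ratio_le hY (hg a) m hn ht).trans_eq (by simp)

omit [MeasurableSpace β] in
lemma cascSum_add (m : Fin r → ℝ) (n : Fin r → ℕ) (Y h : (Fin r → β) → ℝ) (x : ℝ)
    (t : CascTree β r n) : cascSum r m n (fun ω => Y ω + x * h ω) t =
      cascSum r m n Y t + x * cascSum r m n h t := by
  simp only [cascSum_eq_sum_leaves, Finset.mul_sum, ← Finset.sum_add_distrib]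
  exact Finset.sum_congr rfl fun f _ => by ring

omit [IsProbabilityMeasure ν] in
lemma bdd_double {C : ℝ} (hC : 1 ≤ C) {Y h : (Fin r → β) → ℝ} (hY : Bdd C Y) (hhm : Measurable h)
    (hh : ∀ ω, |h ω| ≤ 1) : Segment (2 * C) (1 / (2 * C)) Y h := by
  refine ⟨hhm, hh, fun x hx => ⟨by linarith, hY.meas.add (hhm.const_mul x), fun ω => ?_⟩⟩
  have hxh : |x * h ω| ≤ 1 / (2 * C) := by
    rw [abs_mul]
    exact (mul_le_of_le_one_right (abs_nonneg x) (hh ω)).trans hx.le
  obtain ⟨a, b⟩ := abs_le.1 hxh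
  have e : C⁻¹ = (2 * C)⁻¹ + 1 / (2 * C) := by field_simp; ring
  have : 1 / (2 * C) ≤ C := by rw [div_le_iff₀ (by linarith)]; nlinarith
  exact ⟨by linarith [(hY.mem ω).1], by linarith [(hY.mem ω).2]⟩

lemma tiltMoment_one {C : ℝ} {m : Fin r → ℝ} (hm : Exps m) {Y : (Fin r → β) → ℝ} (hY : Bdd C Y)
    {g : Fin 1 → (Fin r → β) → ℝ} (hgm : ∀ a, Measurable (g a)) (hg : ∀ a ω, |g a ω| ≤ 1) :
    tiltMoment ν m Y g = logD ν m Y (g 0) := by
  set v₀ : Shape r 1 := fun _ _ => Fin.last r
  have hlast : Fin.last 0 = (0 : Fin 1) := rfl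
  have hprob : ∀ v : Shape r 1, shapeProb m 1 v = if v = v₀ then 1 else 0 := by
    intro v
    have hiff : v = v₀ ↔ v (Fin.last 0) (Fin.last 0) = Fin.last r := by
      refine ⟨fun h => by rw [h], fun h => ?_⟩
      funext a b
      rw [Subsingleton.elim a (Fin.last 0), Subsingleton.elim b (Fin.last 0), h]
    show shapeProb m 0 (shapeInit v) * extProb m v = _
    simp only [shapeProb, one_mul, extProb, hiff, if_true]
  rw [tiltMoment, Finset.sum_eq_single v₀ (fun v _ hne => by simp [hprob, hne]) (by simp),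
    hprob, if_pos rfl, one_mul]
  have hrep : ∀ p a, shapeRep v₀ p a = a := fun p a => Subsingleton.elim _ _
  have hW : ∀ ω : Fin r → Fin 1 → β, logW ν m Y v₀ ω = tiltLog ν m Y 0 (fun i => ω i 0) := by
    intro ω
    have hmk : ∀ a, shapeMarks v₀ ω a = fun i => ω i 0 := fun a => by
      funext i
      exact congrArg (ω i) (Subsingleton.elim _ _)
    simp [logW, tiltLog, reps, hrep, hmk]
  have hMP : MeasurePreserving (fun (ω : Fin r → Fin 1 → β) i => ω i 0) (tableLaw ν r 1)
      (Measure.pi fun _ : Fin r => ν) :=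
    measurePreserving_pi _ _ fun _ => measurePreserving_eval (fun _ : Fin 1 => ν) 0
  set F : (Fin r → β) → ℝ := fun τ => Real.exp (tiltLog ν m Y 0 τ) * g 0 τ
  have hFm : Measurable F := (measurable_tiltLog ν m hY.meas 0).exp.mul (hgm 0)
  calc ∫ ω, Real.exp (logW ν m Y v₀ ω) * ∏ a, g a (shapeMarks v₀ ω a) ∂tableLaw ν r 1
      = ∫ ω, F (fun i => ω i 0) ∂tableLaw ν r 1 := by
        refine integral_congr_ae (Eventually.of_forall fun ω => ?_)
        show Real.exp _ * _ = _
        rw [hW, Fin.prod_univ_one]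
        congr 2
        funext i
        exact congrArg (ω i) (Subsingleton.elim _ _)
    _ = ∫ τ, F τ ∂(Measure.pi fun _ => ν) := by
      rw [← hMP.map_eq, integral_map hMP.measurable.aemeasurable hFm.aestronglyMeasurable]
    _ = logD ν m Y (g 0) := by
      obtain ⟨b⟩ := nonempty_of_isProbabilityMeasure ν
      rw [← condD_zero ν m Y (g 0) (fun _ => b),
        ← tilt_integral ν hm hY (hgm 0) (hg 0) 0 (fun _ => b) (Nat.zero_le r)]
      have : ∀ τ : Fin r → β, glue 0 (fun _ => b) τ = τ := fun τ => by funext p; simp [glue]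
      simp only [this]
      rfl

lemma integral_prod_ratio_tendsto : ∀ k : ℕ, ∀ {m : Fin r → ℝ}, Exps m → ∀ {C : ℝ}, 1 ≤ C →
    ∀ {Y : (Fin r → β) → ℝ}, Bdd C Y → ∀ {g : Fin (k + 1) → (Fin r → β) → ℝ},
    (∀ a, Measurable (g a)) → (∀ a ω, |g a ω| ≤ 1) →
    Tendsto (fun n => ∫ t, ∏ a, ratio m n Y (g a) t ∂cascLaw ν r n) (cascFilter r)
      (𝓝 (tiltMoment ν m Y g))
  | 0, m, hm, C, hC, Y, hY, g, hgm, hg => by
    have H := bdd_double hC hY (hgm 0) (hg 0)
    have hδ : 0 < 1 / (2 * C) := by positivity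
    have h0 : |(0 : ℝ)| < 1 / (2 * C) := by simpa using hδ
    have hY0 : (fun ω => Y ω + 0 * g 0 ω) = Y := by simp
    refine tendsto_of_expansion (c := 1) (K := 2 * C ^ 2) hδ one_ne_zero
      (u := fun x n => ∫ t, Real.log (cascMean m n (fun ω => Y ω + x * g 0 ω) t) ∂cascLaw ν r n)
      (f := fun x => Real.log (genNested ν m fun ω => Y ω + x * g 0 ω))
      (fun x hx => cascadeLog β ν r m hm.pos hm.lt_one hm.mono _ (2 * C) (by linarith)
        (H.bdd x hx).meas (H.bdd x hx).mem) (fun x hx => ?_) ?_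
    · filter_upwards [eventually_pos r] with n hn
      simp only [hY0, one_mul, Fin.prod_univ_succ, Fin.prod_univ_zero, mul_one]
      have hi : ∀ y, |y| < 1 / (2 * C) → Integrable
          (fun t => Real.log (cascMean m n (fun ω => Y ω + y * g 0 ω) t)) (cascLaw ν r n) := by
        intro y hy
        refine Integrable.of_bound ((measurable_cascSum m n (H.bdd y hy).meas).div
          (measurable_cascSum m n measurable_const)).log.aestronglyMeasurable |Real.log (2 * C)|
          ((ae_good ν r n).mono fun t ht => ?_)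
        have h1 := cascSum_one_pos m hn ht
        have hlo := (cascSum_pos (H.bdd y hy) m hn ht).1
        have hhi := cascSum_mono (m := m) (Y' := fun _ => 2 * C * 1)
          (fun ω => by simpa using ((H.bdd y hy).mem ω).2) ht
        rw [cascSum_smul m n (fun _ => 1)] at hhi
        exact abs_log_le (by linarith) ((le_div_iff₀ h1).2 hlo) ((div_le_iff₀ h1).2 hhi)
      have hiY := hi 0 h0
      rw [hY0] at hiY
      have hiR : Integrable (fun t => ratio m n Y (g 0) t) (cascLaw ν r n) := by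
        simpa using integrable_prod_ratio ν hY (g := fun _ : Fin 1 => g 0) (fun _ => hgm 0)
          (fun _ => hg 0) m hn
      have hid : Integrable (fun t => Real.log (cascMean m n (fun ω => Y ω + x * g 0 ω) t) -
          Real.log (cascMean m n Y t)) (cascLaw ν r n) := (hi x hx).sub hiY
      rw [← integral_sub (hi x hx) hiY, ← integral_const_mul,
        ← integral_sub hid (hiR.const_mul x)]
      rw [← Real.norm_eq_abs]
      refine (norm_integral_le_of_norm_le_const (C := 2 * C ^ 2 * x ^ 2)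
        ((ae_good ν r n).mono fun t ht => ?_)).trans_eq
          (by rw [probReal_univ, mul_one])
      have h1 := cascSum_one_pos m hn ht
      have hS := (cascSum_pos hY m hn ht).2
      have hR := abs_ratio_le hY (hg 0) m hn ht
      have hy : |x * ratio m n Y (g 0) t| ≤ 1 / 2 := by
        rw [abs_mul]
        calc |x| * |ratio m n Y (g 0) t| ≤ 1 / (2 * C) * C :=
              mul_le_mul hx.le hR (abs_nonneg _) hδ.le
          _ = 1 / 2 := by field_simp
      have hp : 0 < 1 + x * ratio m n Y (g 0) t := by linarith [(abs_le.1 hy).1]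
      have hsum : cascSum r m n (fun ω => Y ω + x * g 0 ω) t =
          cascSum r m n Y t * (1 + x * ratio m n Y (g 0) t) := by
        rw [cascSum_add, ratio]; field_simp
      have hlog : Real.log (cascMean m n (fun ω => Y ω + x * g 0 ω) t) =
          Real.log (cascMean m n Y t) + Real.log (1 + x * ratio m n Y (g 0) t) := by
        rw [cascMean, hsum, mul_div_right_comm, Real.log_mul (div_pos hS h1).ne' hp.ne']
        rfl
      rw [Real.norm_eq_abs]
      rw [hlog, add_sub_cancel_left]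
      refine (abs_log_one_add_sub_le hy).trans ?_
      rw [mul_pow]
      have : ratio m n Y (g 0) t ^ 2 ≤ C ^ 2 := sq_le_sq' (abs_le.1 hR).1 (abs_le.1 hR).2
      nlinarith [sq_nonneg x]
    · rw [one_mul, tiltMoment_one ν hm hY hgm hg]
      have h := hasDerivAt_log_cond ν hm H h0 0
      obtain ⟨b⟩ := nonempty_of_isProbabilityMeasure ν
      simpa only [cond_zero, condD_zero, hY0] using h (fun _ => b)
  | k + 1, m, hm, C, hC, Y, hY, g, hgm, hg => by
    set h := g (Fin.last (k + 1))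
    set g' : Fin (k + 1) → (Fin r → β) → ℝ := fun a => g a.castSucc
    have H := bdd_double hC hY (hgm (Fin.last (k + 1))) (hg (Fin.last (k + 1)))
    have hδ : 0 < 1 / (2 * C) := by positivity
    have h0 : |(0 : ℝ)| < 1 / (2 * C) := by simpa using hδ
    have hY0 : (fun ω => Y ω + 0 * h ω) = Y := by simp
    have hder := hasDerivAt_tiltMoment ν k.succ_ne_zero hm hδ H (g := g') (fun a => hgm _)
      fun a => hg _
    have hsnoc : (Fin.snoc g' h : Fin (k + 1 + 1) → (Fin r → β) → ℝ) = g := Fin.snoc_init_self g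
    rw [hsnoc, ← neg_mul] at hder
    obtain ⟨K, hK⟩ := exists_pow_expansion (k + 1)
    refine tendsto_of_expansion (c := -((k + 1 : ℕ) : ℝ)) (K := C ^ (k + 1) * (K * C ^ 2)) hδ
      (neg_ne_zero.2 (Nat.cast_ne_zero.2 k.succ_ne_zero))
      (u := fun x n => ∫ t, ∏ a, ratio m n (fun ω => Y ω + x * h ω) (g' a) t ∂cascLaw ν r n)
      (fun x hx => integral_prod_ratio_tendsto k hm (by linarith) (H.bdd x hx) (fun a => hgm _)
        fun a => hg _) (fun x hx => ?_) hder
    filter_upwards [eventually_pos r] with n hn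
    simp only [hY0]
    have hix := integrable_prod_ratio ν (H.bdd x hx) (g := g') (fun a => hgm _) (fun a => hg _) m hn
    have hiY := integrable_prod_ratio ν hY (g := g') (fun a => hgm _) (fun a => hg _) m hn
    have hiP := integrable_prod_ratio ν hY hgm hg m hn
    have hid : Integrable (fun t => ∏ a, ratio m n (fun ω => Y ω + x * h ω) (g' a) t -
        ∏ a, ratio m n Y (g' a) t) (cascLaw ν r n) := hix.sub hiY
    rw [← integral_sub hix hiY, ← integral_const_mul, ← integral_const_mul,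
      ← integral_sub hid ((hiP.const_mul _).const_mul x)]
    rw [← Real.norm_eq_abs]
    refine (norm_integral_le_of_norm_le_const (C := C ^ (k + 1) * (K * C ^ 2) * x ^ 2)
      ((ae_good ν r n).mono fun t ht => ?_)).trans_eq (by rw [probReal_univ, mul_one])
    have hS := (cascSum_pos hY m hn ht).2
    set y := x * ratio m n Y h t with hydef
    have hR := abs_ratio_le hY (hg (Fin.last (k + 1))) m hn ht
    have hy : |y| ≤ 1 / 2 := by
      rw [hydef, abs_mul]
      calc |x| * |ratio m n Y h t| ≤ 1 / (2 * C) * C :=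
            mul_le_mul hx.le hR (abs_nonneg _) hδ.le
        _ = 1 / 2 := by field_simp
    have hp : 0 < 1 + y := by linarith [(abs_le.1 hy).1]
    have hsum : cascSum r m n (fun ω => Y ω + x * h ω) t = cascSum r m n Y t * (1 + y) := by
      rw [cascSum_add, hydef, ratio]; field_simp
    have hrx : ∀ a, ratio m n (fun ω => Y ω + x * h ω) (g' a) t =
        ratio m n Y (g' a) t * (1 + y)⁻¹ := by
      intro a
      simp only [ratio, hsum]
      field_simp
    simp only [hrx, Finset.prod_mul_distrib, Finset.prod_const, Finset.card_univ, Fintype.card_fin,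
      Real.norm_eq_abs]
    rw [Fin.prod_univ_castSucc (fun a => ratio m n Y (g a) t)]
    set P := ∏ a, ratio m n Y (g' a) t
    have hP : |P| ≤ C ^ (k + 1) := by
      rw [Finset.abs_prod]
      exact (Finset.prod_le_prod (fun a _ => abs_nonneg _)
        fun a _ => abs_ratio_le hY (hg _) m hn ht).trans_eq (by simp)
    rw [show P * (1 + y)⁻¹ ^ (k + 1) - P - x * (-((k + 1 : ℕ) : ℝ) * (P * ratio m n Y h t)) =
      P * ((1 + y)⁻¹ ^ (k + 1) - 1 + ((k + 1 : ℕ) : ℝ) * y) by rw [hydef]; ring, abs_mul]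
    have hy2 : y ^ 2 ≤ C ^ 2 * x ^ 2 := by
      rw [hydef, mul_pow, mul_comm]
      exact mul_le_mul_of_nonneg_right (sq_le_sq' (abs_le.1 hR).1 (abs_le.1 hR).2) (sq_nonneg x)
    have hK0 : 0 ≤ K := by
      have := (abs_nonneg _).trans (hK (1 / 2) (by norm_num))
      nlinarith
    calc |P| * |(1 + y)⁻¹ ^ (k + 1) - 1 + ((k + 1 : ℕ) : ℝ) * y|
        ≤ C ^ (k + 1) * (K * (C ^ 2 * x ^ 2)) :=
          mul_le_mul hP ((hK y hy).trans (mul_le_mul_of_nonneg_left hy2 hK0)) (abs_nonneg _)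
            (by positivity)
      _ = _ := by ring

/-- Module 2b. -/
theorem cascadeMoment : CascadeMomentStmt := by
  intro β _ ν _ r k m hpos hlt hmono g hgm hg
  have hm : Exps m := ⟨hpos, hlt, hmono⟩
  cases k with
  | zero =>
    refine Tendsto.congr (fun n => ?_) (tendsto_const_nhds (x := treeMoment ν m g))
    simp [treeMoment, shapeProb]
  | succ k =>
    have hY : Bdd (1 : ℝ) (fun _ : Fin r → β => (1 : ℝ)) :=
      ⟨one_pos, measurable_const, fun _ => by simp⟩
    have h := integral_prod_ratio_tendsto ν k hm le_rfl hY hgm hg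
    have hc : ∀ (p : ℕ) (ρ : Fin r → β), cond ν m (fun _ => (1 : ℝ)) p ρ = 1 := fun p ρ => by
      have := cond_mem ν hm hY p ρ
      rw [inv_one] at this
      linarith [this.1, this.2]
    have ht : tiltMoment ν m (fun _ => (1 : ℝ)) g = treeMoment ν m g := by
      simp [tiltMoment, treeMoment, logW, hc]
    rw [ht] at h
    exact h

end Vale.Agent.P168.Cascade
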