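import Vale.Agent.P168.Statements

/-! Basic tools for finite cascades: iterated limits, leaves, good trees, integrals over children. -/

open MeasureTheory ProbabilityTheory Filter Topology
open scoped BigOperators NNReal ENNReal

noncomputable section

namespace Vale.Agent.P168.Cascade

open Vale.Agent.P168

/-- Iterated limit, innermost index first, along positive indices. -/
def CLim {γ : Type*} [TopologicalSpace γ] : (r : ℕ) → ((Fin r → ℕ) → γ) → γ → Prop
  | 0, F, L => F Fin.elim0 = L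
  | r + 1, F, L => ∃ h : ℕ → γ, (∀ k, 0 < k → CLim r (fun n => F (Fin.cons k n)) (h k)) ∧
      Tendsto h atTop (𝓝 L)

section CLim

variable {γ δ ε : Type*} [TopologicalSpace γ] [TopologicalSpace δ] [TopologicalSpace ε]

lemma pos_cons {r k : ℕ} {n : Fin r → ℕ} (hk : 0 < k) (hn : ∀ i, 0 < n i) :
    ∀ i, 0 < (Fin.cons k n : Fin (r + 1) → ℕ) i := by
  intro i
  refine Fin.cases ?_ (fun j => ?_) i
  · simpa using hk
  · simpa using hn j

lemma CLim.congr : ∀ {r : ℕ} {F G : (Fin r → ℕ) → γ} {L : γ},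
    CLim r F L → (∀ n, (∀ i, 0 < n i) → F n = G n) → CLim r G L
  | 0, F, G, L, h, he => by
    show G Fin.elim0 = L
    rw [← he Fin.elim0 fun i => i.elim0]
    exact h
  | r + 1, F, G, L, ⟨h, h1, h2⟩, he =>
    ⟨h, fun k hk => (h1 k hk).congr fun n hn => he _ (pos_cons hk hn), h2⟩

lemma clim_const : ∀ {r : ℕ} (c : γ), CLim r (fun _ => c) c
  | 0, _ => rfl
  | _ + 1, c => ⟨fun _ => c, fun _ _ => clim_const c, tendsto_const_nhds⟩

lemma CLim.map {φ : γ → δ} (hφ : Continuous φ) : ∀ {r : ℕ} {F : (Fin r → ℕ) → γ} {L : γ},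
    CLim r F L → CLim r (fun n => φ (F n)) (φ L)
  | 0, _, _, h => congrArg φ h
  | _ + 1, _, _, ⟨h, h1, h2⟩ =>
    ⟨fun k => φ (h k), fun k hk => (h1 k hk).map hφ, (hφ.tendsto _).comp h2⟩

lemma CLim.map₂ {φ : γ → δ → ε} (hφ : Continuous (Function.uncurry φ)) :
    ∀ {r : ℕ} {F : (Fin r → ℕ) → γ} {G : (Fin r → ℕ) → δ} {L : γ} {M : δ},
    CLim r F L → CLim r G M → CLim r (fun n => φ (F n) (G n)) (φ L M)
  | 0, _, _, _, _, h, h' => congrArg₂ φ h h'
  | _ + 1, _, _, _, _, ⟨h, h1, h2⟩, ⟨h', h1', h2'⟩ =>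
    ⟨fun k => φ (h k) (h' k), fun k hk => (h1 k hk).map₂ hφ (h1' k hk),
      (hφ.tendsto _).comp (h2.prodMk_nhds h2')⟩

lemma CLim.unique [T2Space γ] : ∀ {r : ℕ} {F : (Fin r → ℕ) → γ} {L L' : γ},
    CLim r F L → CLim r F L' → L = L'
  | 0, _, _, _, h, h' => h.symm.trans h'
  | _ + 1, _, L, L', ⟨h, h1, h2⟩, ⟨h', h1', h2'⟩ => by
    refine tendsto_nhds_unique h2 (h2'.congr' ?_)
    filter_upwards [eventually_gt_atTop 0] with k hk
    exact ((h1 k hk).unique (h1' k hk)).symm

end CLim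

lemma CLim.mul {r : ℕ} {F G : (Fin r → ℕ) → ℝ} {L M : ℝ} (hF : CLim r F L) (hG : CLim r G M) :
    CLim r (fun n => F n * G n) (L * M) :=
  hF.map₂ (φ := fun a b : ℝ => a * b) continuous_mul hG

lemma CLim.sub {r : ℕ} {F G : (Fin r → ℕ) → ℝ} {L M : ℝ} (hF : CLim r F L) (hG : CLim r G M) :
    CLim r (fun n => F n - G n) (L - M) :=
  hF.map₂ (φ := fun a b : ℝ => a - b) continuous_sub hG

lemma CLim.const_mul {r : ℕ} {F : (Fin r → ℕ) → ℝ} {L : ℝ} (c : ℝ) (hF : CLim r F L) :
    CLim r (fun n => c * F n) (c * L) :=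
  hF.map (φ := fun a : ℝ => c * a) (continuous_const.mul continuous_id)

lemma clim_prod {r : ℕ} {ι : Type*} (s : Finset ι) {F : ι → (Fin r → ℕ) → ℝ} {L : ι → ℝ}
    (h : ∀ i ∈ s, CLim r (F i) (L i)) : CLim r (fun n => ∏ i ∈ s, F i n) (∏ i ∈ s, L i) := by
  classical
  induction s using Finset.induction with
  | empty => simpa using clim_const (γ := ℝ) 1
  | insert a s ha ih =>
    simp only [Finset.prod_insert ha]
    exact (h a (Finset.mem_insert_self a s)).mul
      (ih fun i hi => h i (Finset.mem_insert_of_mem hi))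

lemma clim_sum {r : ℕ} {ι : Type*} (s : Finset ι) {F : ι → (Fin r → ℕ) → ℝ} {L : ι → ℝ}
    (h : ∀ i ∈ s, CLim r (F i) (L i)) : CLim r (fun n => ∑ i ∈ s, F i n) (∑ i ∈ s, L i) := by
  classical
  induction s using Finset.induction with
  | empty => simpa using clim_const (γ := ℝ) 0
  | insert a s ha ih =>
    simp only [Finset.sum_insert ha]
    exact (h a (Finset.mem_insert_self a s)).map₂ (φ := fun x y : ℝ => x + y) continuous_add
      (ih fun i hi => h i (Finset.mem_insert_of_mem hi))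

lemma CLim.tendsto : ∀ {r : ℕ} {F : (Fin r → ℕ) → ℝ} {L : ℝ},
    CLim r F L → Tendsto F (cascFilter r) (𝓝 L)
  | 0, F, L, h => by
    show Tendsto F (pure Fin.elim0) (𝓝 L)
    rw [tendsto_pure_left]
    intro s hs
    rw [show F Fin.elim0 = L from h]
    exact mem_of_mem_nhds hs
  | r + 1, F, L, ⟨h, h1, h2⟩ => by
    rw [Metric.tendsto_nhds]
    intro e he
    show {n | dist (F n) L < e} ∈ Filter.bind atTop fun n₀ => (cascFilter r).map (Fin.cons n₀)
    rw [Filter.mem_bind']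
    filter_upwards [eventually_gt_atTop 0, Metric.tendsto_nhds.1 h2 (e / 2) (by linarith)]
      with k hk hd
    rw [Filter.mem_map]
    filter_upwards [Metric.tendsto_nhds.1 (h1 k hk).tendsto (e / 2) (by linarith)] with n hn
    show dist (F (Fin.cons k n)) L < e
    linarith [dist_triangle (F (Fin.cons k n)) (h k) L]

/-- Dominated convergence for iterated limits. -/
lemma clim_integral {X : Type*} [MeasurableSpace X] {μ : Measure X} :
    ∀ {r : ℕ} {F : (Fin r → ℕ) → X → ℝ} {L bd : X → ℝ}, Integrable bd μ →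
    (∀ n, (∀ i, 0 < n i) → AEStronglyMeasurable (F n) μ ∧ ∀ᵐ x ∂μ, |F n x| ≤ bd x) →
    (∀ᵐ x ∂μ, CLim r (fun n => F n x) (L x)) →
    AEStronglyMeasurable L μ ∧ (∀ᵐ x ∂μ, |L x| ≤ bd x) ∧
      CLim r (fun n => ∫ x, F n x ∂μ) (∫ x, L x ∂μ) := by
  intro r
  induction r with
  | zero =>
    intro F L bd _ hF hlim
    obtain ⟨hm, hb⟩ := hF Fin.elim0 fun i => i.elim0
    have he : F Fin.elim0 =ᵐ[μ] L := hlim.mono fun x hx => hx
    refine ⟨hm.congr he, ?_, integral_congr_ae he⟩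
    filter_upwards [hb, he] with x hx hxe
    rwa [← hxe]
  | succ r ih =>
    intro F L bd hbd hF hlim
    classical
    set g : ℕ → X → ℝ := fun k x =>
      if hx : CLim (r + 1) (fun n => F n x) (L x) then hx.choose k else 0 with hg
    have hk : ∀ k, 0 < k → AEStronglyMeasurable (g k) μ ∧ (∀ᵐ x ∂μ, |g k x| ≤ bd x) ∧
        CLim r (fun n => ∫ x, F (Fin.cons k n) x ∂μ) (∫ x, g k x ∂μ) := fun k hk =>
      ih hbd (fun n hn => hF _ (pos_cons hk hn)) (hlim.mono fun x hx => by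
        simp only [hg, dif_pos hx]
        exact hx.choose_spec.1 k hk)
    have hgt : ∀ᵐ x ∂μ, Tendsto (fun k => g (k + 1) x) atTop (𝓝 (L x)) :=
      hlim.mono fun x hx => by
        simp only [hg, dif_pos hx]
        exact hx.choose_spec.2.comp (tendsto_add_atTop_nat 1)
    have hLm : AEStronglyMeasurable L μ :=
      aestronglyMeasurable_of_tendsto_ae atTop (fun k => (hk (k + 1) k.succ_pos).1) hgt
    have hall : ∀ᵐ x ∂μ, ∀ k : ℕ, |g (k + 1) x| ≤ bd x :=
      ae_all_iff.2 fun k => (hk (k + 1) k.succ_pos).2.1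
    refine ⟨hLm, ?_, fun k => ∫ x, g k x ∂μ, fun k hk0 => (hk k hk0).2.2, ?_⟩
    · filter_upwards [hgt, hall] with x hx hb
      exact le_of_tendsto' hx.abs hb
    · rw [← tendsto_add_atTop_iff_nat 1]
      exact tendsto_integral_of_dominated_convergence bd (fun k => (hk (k + 1) k.succ_pos).1)
        hbd (fun k => (hk (k + 1) k.succ_pos).2.1) hgt

instance : IsProbabilityMeasure unif := by
  constructor
  simp [unif]

lemma unif_ae_mem : ∀ᵐ u ∂unif, u ∈ Set.Ioc (0 : ℝ) 1 := by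
  rw [unif, ← restrict_Ioc_eq_restrict_Icc]
  exact ae_restrict_mem measurableSet_Ioc

lemma integral_unif_scale (F : ℝ → ℝ) {n : ℕ} (hn : 0 < n) :
    ∫ u, F ((n : ℝ) * u) ∂unif = (n : ℝ)⁻¹ * ∫ t in Set.Ioc (0 : ℝ) n, F t := by
  have hn' : (0 : ℝ) < n := by exact_mod_cast hn
  have h : ∫ u in (0 : ℝ)..1, F ((n : ℝ) * u) = (n : ℝ)⁻¹ • ∫ t in (n : ℝ) * 0..(n : ℝ) * 1, F t :=
    intervalIntegral.integral_comp_mul_left _ hn'.ne'
  rw [unif, ← restrict_Ioc_eq_restrict_Icc]
  simp only [mul_zero, mul_one, smul_eq_mul] at h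
  rw [intervalIntegral.integral_of_le zero_le_one, intervalIntegral.integral_of_le hn'.le] at h
  exact h

section Tree

variable {β : Type} [MeasurableSpace β]

/-- The sample space of one child. -/
abbrev Child (β : Type) (r : ℕ) (n : Fin r → ℕ) := ℝ × β × CascTree β r n

/-- The law of one child. -/
abbrev childLaw (ν : Measure β) (r : ℕ) (n : Fin r → ℕ) : Measure (Child β r n) :=
  unif.prod (ν.prod (cascLaw ν r n))

instance cascLaw.isProbability (ν : Measure β) [IsProbabilityMeasure ν] :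
    ∀ (r : ℕ) (n : Fin r → ℕ), IsProbabilityMeasure (cascLaw ν r n)
  | 0, _ => inferInstanceAs (IsProbabilityMeasure (Measure.dirac ()))
  | r + 1, n => by
    haveI := cascLaw.isProbability ν r (Fin.tail n)
    show IsProbabilityMeasure (Measure.pi fun _ : Fin (n 0) => childLaw ν r (Fin.tail n))
    infer_instance

lemma measurable_child {r : ℕ} {n : Fin (r + 1) → ℕ} (k : Fin (n 0)) :
    Measurable fun t : CascTree β (r + 1) n => (t k : Child β r (Fin.tail n)) :=
  measurable_pi_apply (X := fun _ : Fin (n 0) => Child β r (Fin.tail n)) k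

lemma integral_tree_prod (ν : Measure β) [IsProbabilityMeasure ν] {r : ℕ} {n : Fin (r + 1) → ℕ}
    (f : Fin (n 0) → Child β r (Fin.tail n) → ℝ) :
    ∫ t, ∏ k, f k (t k) ∂cascLaw ν (r + 1) n = ∏ k, ∫ p, f k p ∂childLaw ν r (Fin.tail n) :=
  integral_fintype_prod_eq_prod (fun k => f k)

/-- All uniform variables lie in `(0,1]`. -/
def GoodTree : (r : ℕ) → (n : Fin r → ℕ) → CascTree β r n → Prop
  | 0, _, _ => True
  | r + 1, n, t => ∀ k : Fin (n 0),
      (t k).1 ∈ Set.Ioc (0 : ℝ) 1 ∧ GoodTree r (Fin.tail n) (t k).2.2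

lemma child_ae_good (ν : Measure β) [IsProbabilityMeasure ν] {r : ℕ} {n : Fin r → ℕ}
    (h : ∀ᵐ t ∂cascLaw ν r n, GoodTree r n t) :
    ∀ᵐ p ∂childLaw ν r n, p.1 ∈ Set.Ioc (0 : ℝ) 1 ∧ GoodTree r n p.2.2 :=
  (Measure.quasiMeasurePreserving_fst.ae unif_ae_mem).and
    (Measure.quasiMeasurePreserving_snd.ae (Measure.quasiMeasurePreserving_snd.ae h))

lemma ae_good (ν : Measure β) [IsProbabilityMeasure ν] :
    ∀ (r : ℕ) (n : Fin r → ℕ), ∀ᵐ t ∂cascLaw ν r n, GoodTree r n t
  | 0, _ => Filter.Eventually.of_forall fun _ => trivial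
  | r + 1, n => by
    have h := child_ae_good ν (ae_good ν r (Fin.tail n))
    exact ae_all_iff.2 fun k => (Measure.quasiMeasurePreserving_eval
      (μ := fun _ : Fin (n 0) => childLaw ν r (Fin.tail n)) k).ae h

/-- A leaf. -/
abbrev Leaf (r : ℕ) (n : Fin r → ℕ) := (i : Fin r) → Fin (n i)

/-- The weight of a leaf. -/
def leafW : (r : ℕ) → (Fin r → ℝ) → (n : Fin r → ℕ) → CascTree β r n → Leaf r n → ℝ
  | 0, _, _, _, _ => 1
  | r + 1, m, n, t, f => ((n 0 : ℝ) * (t (f 0)).1) ^ (-(1 / m 0)) *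
      leafW r (Fin.tail m) (Fin.tail n) (t (f 0)).2.2 (Fin.tail f)

/-- The marks of a leaf. -/
def leafMarks : (r : ℕ) → (n : Fin r → ℕ) → CascTree β r n → Leaf r n → Fin r → β
  | 0, _, _, _ => Fin.elim0
  | r + 1, n, t, f =>
    Fin.cons (t (f 0)).2.1 (leafMarks r (Fin.tail n) (t (f 0)).2.2 (Fin.tail f))

/-- The level of the deepest common node of two leaves. -/
def leafMeet : (r : ℕ) → (n : Fin r → ℕ) → Leaf r n → Leaf r n → ℕ
  | 0, _, _, _ => 0
  | r + 1, n, f, g => if f 0 = g 0 then leafMeet r (Fin.tail n) (Fin.tail f) (Fin.tail g) + 1 else 0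

lemma measurable_leafW : ∀ (r : ℕ) (m : Fin r → ℝ) (n : Fin r → ℕ) (f : Leaf r n),
    Measurable fun t : CascTree β r n => leafW r m n t f
  | 0, _, _, _ => measurable_const
  | r + 1, m, n, f => by
    have hc := measurable_child (β := β) (f 0)
    exact ((measurable_const.mul (measurable_fst.comp hc)).pow_const _).mul
      ((measurable_leafW r _ _ _).comp (measurable_snd.comp (measurable_snd.comp hc)))

lemma measurable_leafMarks : ∀ (r : ℕ) (n : Fin r → ℕ) (f : Leaf r n),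
    Measurable fun t : CascTree β r n => leafMarks r n t f
  | 0, _, _ => measurable_const
  | r + 1, n, f => by
    have hc := measurable_child (β := β) (f 0)
    refine measurable_pi_lambda _ fun i => ?_
    refine Fin.cases ?_ (fun j => ?_) i
    · simp only [leafMarks, Fin.cons_zero]
      exact measurable_fst.comp (measurable_snd.comp hc)
    · simp only [leafMarks, Fin.cons_succ]
      exact (measurable_pi_apply j).comp
        ((measurable_leafMarks r _ (Fin.tail f)).comp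
          (measurable_snd.comp (measurable_snd.comp hc)))

lemma sum_leaf_succ {r : ℕ} {n : Fin (r + 1) → ℕ} (G : Leaf (r + 1) n → ℝ) :
    ∑ f, G f = ∑ k : Fin (n 0), ∑ g : Leaf r (Fin.tail n), G (Fin.cons k g) := by
  rw [← Fintype.sum_prod_type']
  exact ((Fin.consEquiv fun i => Fin (n i)).sum_comp G).symm

omit [MeasurableSpace β] in
lemma cascSum_eq_sum_leaves : ∀ (r : ℕ) (m : Fin r → ℝ) (n : Fin r → ℕ)
    (Y : (Fin r → β) → ℝ) (t : CascTree β r n),
    cascSum r m n Y t = ∑ f, leafW r m n t f * Y (leafMarks r n t f)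
  | 0, _, _, _, _ => by simp [cascSum, leafW, leafMarks]
  | r + 1, m, n, Y, t => by
    rw [sum_leaf_succ]
    simp only [cascSum]
    refine Finset.sum_congr rfl fun k _ => ?_
    rw [cascSum_eq_sum_leaves r, Finset.mul_sum]
    refine Finset.sum_congr rfl fun g _ => ?_
    show _ = ((n 0 : ℝ) * (t k).1) ^ (-(1 / m 0)) *
      leafW r (Fin.tail m) (Fin.tail n) (t k).2.2 g *
        Y (Fin.cons (t k).2.1 (leafMarks r (Fin.tail n) (t k).2.2 g))
    ring

omit [MeasurableSpace β] in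
lemma leafW_pos : ∀ (r : ℕ) (m : Fin r → ℝ) (n : Fin r → ℕ) (t : CascTree β r n)
    (f : Leaf r n), GoodTree r n t → 0 < leafW r m n t f
  | 0, _, _, _, _, _ => one_pos
  | r + 1, m, n, t, f, h => by
    have hn : (0 : ℝ) < n 0 := by exact_mod_cast Fin.pos (f 0)
    exact mul_pos (Real.rpow_pos_of_pos (mul_pos hn (h (f 0)).1.1) _)
      (leafW_pos r _ _ _ _ (h (f 0)).2)

lemma measurable_cascSum {r : ℕ} (m : Fin r → ℝ) (n : Fin r → ℕ) {Y : (Fin r → β) → ℝ}
    (hY : Measurable Y) : Measurable fun t : CascTree β r n => cascSum r m n Y t := by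
  simp only [cascSum_eq_sum_leaves]
  exact Finset.measurable_sum _ fun f _ =>
    (measurable_leafW r m n f).mul (hY.comp (measurable_leafMarks r n f))

omit [MeasurableSpace β] in
lemma cascSum_mono {r : ℕ} {m : Fin r → ℝ} {n : Fin r → ℕ} {Y Y' : (Fin r → β) → ℝ}
    (h : ∀ ω, Y ω ≤ Y' ω) {t : CascTree β r n} (ht : GoodTree r n t) :
    cascSum r m n Y t ≤ cascSum r m n Y' t := by
  simp only [cascSum_eq_sum_leaves]
  exact Finset.sum_le_sum fun f _ => mul_le_mul_of_nonneg_left (h _) (leafW_pos r m n t f ht).le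

omit [MeasurableSpace β] in
lemma cascSum_smul {r : ℕ} (m : Fin r → ℝ) (n : Fin r → ℕ) (Y : (Fin r → β) → ℝ) (c : ℝ)
    (t : CascTree β r n) :
    cascSum r m n (fun ω => c * Y ω) t = c * cascSum r m n Y t := by
  simp only [cascSum_eq_sum_leaves, Finset.mul_sum]
  exact Finset.sum_congr rfl fun f _ => by ring

omit [MeasurableSpace β] in
lemma cascSum_one_pos {r : ℕ} (m : Fin r → ℝ) {n : Fin r → ℕ} (hn : ∀ i, 0 < n i)
    {t : CascTree β r n} (ht : GoodTree r n t) : 0 < cascSum r m n (fun _ => 1) t := by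
  simp only [cascSum_eq_sum_leaves, mul_one]
  exact Finset.sum_pos (fun f _ => leafW_pos r m n t f ht) ⟨fun i => ⟨0, hn i⟩, Finset.mem_univ _⟩

omit [MeasurableSpace β] in
lemma abs_cascSum_le {r : ℕ} {m : Fin r → ℝ} {n : Fin r → ℕ} {g : (Fin r → β) → ℝ}
    (hg : ∀ ω, |g ω| ≤ 1) {t : CascTree β r n} (ht : GoodTree r n t) :
    |cascSum r m n g t| ≤ cascSum r m n (fun _ => 1) t := by
  simp only [cascSum_eq_sum_leaves, mul_one]
  refine (Finset.abs_sum_le_sum_abs _ _).trans (Finset.sum_le_sum fun f _ => ?_)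
  rw [abs_mul, abs_of_pos (leafW_pos r m n t f ht)]
  exact mul_le_of_le_one_right (leafW_pos r m n t f ht).le (hg _)

/-- `E exp (-v S(Y))`. -/
def phi (ν : Measure β) {r : ℕ} (m : Fin r → ℝ) (n : Fin r → ℕ) (Y : (Fin r → β) → ℝ) (v : ℝ) : ℝ :=
  ∫ t, Real.exp (-(v * cascSum r m n Y t)) ∂cascLaw ν r n

/-- The weight of a child whose scaled uniform variable is `s`. -/
def wt (m s : ℝ) : ℝ := s ^ (-(1 / m))

lemma wt_nonneg {m s : ℝ} (hs : 0 ≤ s) : 0 ≤ wt m s := Real.rpow_nonneg hs _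

lemma measurable_wt (m : ℝ) : Measurable (wt m) := measurable_id.pow_const _

variable (ν : Measure β) [IsProbabilityMeasure ν]

omit [MeasurableSpace β] in
lemma exp_le_one {r : ℕ} {m : Fin r → ℝ} {n : Fin r → ℕ} {Y : (Fin r → β) → ℝ} (hY0 : ∀ ω, 0 ≤ Y ω)
    {v : ℝ} (hv : 0 ≤ v) {t : CascTree β r n} (ht : GoodTree r n t) :
    Real.exp (-(v * cascSum r m n Y t)) ≤ 1 := by
  rw [Real.exp_le_one_iff, neg_nonpos]
  refine mul_nonneg hv ?_
  simp only [cascSum_eq_sum_leaves]
  exact Finset.sum_nonneg fun f _ => mul_nonneg (leafW_pos r m n t f ht).le (hY0 _)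

lemma integrable_exp_cascSum {r : ℕ} (m : Fin r → ℝ) (n : Fin r → ℕ) {Y : (Fin r → β) → ℝ}
    (hY : Measurable Y) (hY0 : ∀ ω, 0 ≤ Y ω) {v : ℝ} (hv : 0 ≤ v) :
    Integrable (fun t => Real.exp (-(v * cascSum r m n Y t))) (cascLaw ν r n) := by
  refine Integrable.of_bound ((measurable_cascSum m n hY).const_mul v).neg.exp.aestronglyMeasurable 1
    ((ae_good ν r n).mono fun t ht => ?_)
  rw [Real.norm_eq_abs, abs_of_pos (Real.exp_pos _)]
  exact exp_le_one hY0 hv ht

omit [IsProbabilityMeasure ν] in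
lemma phi_nonneg {r : ℕ} (m : Fin r → ℝ) (n : Fin r → ℕ) (Y : (Fin r → β) → ℝ) (v : ℝ) :
    0 ≤ phi ν m n Y v := integral_nonneg fun _ => (Real.exp_pos _).le

lemma phi_le_one {r : ℕ} (m : Fin r → ℝ) (n : Fin r → ℕ) {Y : (Fin r → β) → ℝ}
    (hY0 : ∀ ω, 0 ≤ Y ω) {v : ℝ} (hv : 0 ≤ v) : phi ν m n Y v ≤ 1 := by
  rcases em (Integrable (fun t => Real.exp (-(v * cascSum r m n Y t))) (cascLaw ν r n)) with hi | hi
  · calc phi ν m n Y v ≤ ∫ _t, (1 : ℝ) ∂cascLaw ν r n :=
        integral_mono_ae hi (integrable_const _)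
          ((ae_good ν r n).mono fun _ ht => exp_le_one hY0 hv ht)
      _ = 1 := by simp
  · rw [phi, integral_undef hi]; exact zero_le_one

lemma phi_anti {r : ℕ} (m : Fin r → ℝ) (n : Fin r → ℕ) {Y Y' : (Fin r → β) → ℝ}
    (hY : Measurable Y) (hY' : Measurable Y') (h0 : ∀ ω, 0 ≤ Y ω) (h : ∀ ω, Y ω ≤ Y' ω) {v : ℝ}
    (hv : 0 ≤ v) : phi ν m n Y' v ≤ phi ν m n Y v :=
  integral_mono_ae (integrable_exp_cascSum ν m n hY' (fun ω => (h0 ω).trans (h ω)) hv)
    (integrable_exp_cascSum ν m n hY h0 hv) ((ae_good ν r n).mono fun t ht =>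
      Real.exp_le_exp.2 (neg_le_neg (mul_le_mul_of_nonneg_left (cascSum_mono h ht) hv)))

omit [IsProbabilityMeasure ν] in
lemma phi_smul {r : ℕ} (m : Fin r → ℝ) (n : Fin r → ℕ) (Y : (Fin r → β) → ℝ) (c v : ℝ) :
    phi ν m n (fun ω => c * Y ω) v = phi ν m n Y (v * c) := by
  unfold phi
  simp only [cascSum_smul, mul_assoc]

lemma measurable_phi {r : ℕ} (m : Fin r → ℝ) (n : Fin r → ℕ) {δ : Type*} [MeasurableSpace δ]
    {Y : δ → (Fin r → β) → ℝ} (hY : Measurable (Function.uncurry Y)) {v : δ → ℝ}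
    (hv : Measurable v) : Measurable fun d => phi ν m n (Y d) (v d) := by
  have h : Measurable fun p : δ × CascTree β r n =>
      Real.exp (-(v p.1 * cascSum r m n (Y p.1) p.2)) := by
    simp only [cascSum_eq_sum_leaves]
    refine ((hv.comp measurable_fst).mul (Finset.measurable_sum _ fun f _ => ?_)).neg.exp
    exact ((measurable_leafW r m n f).comp measurable_snd).mul
      (hY.comp (measurable_fst.prodMk ((measurable_leafMarks r n f).comp measurable_snd)))
  exact (h.stronglyMeasurable.integral_prod_right').measurable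

/-- The recursion for the Laplace transform. -/
lemma phi_succ {r : ℕ} (m : Fin (r + 1) → ℝ) (n : Fin (r + 1) → ℕ) {Y : (Fin (r + 1) → β) → ℝ}
    (hY : Measurable Y) (hY0 : ∀ ω, 0 ≤ Y ω) {v : ℝ} (hv : 0 ≤ v) :
    phi ν m n Y v = (∫ u, ∫ b, phi ν (Fin.tail m) (Fin.tail n) (fun ω => Y (Fin.cons b ω))
      (v * wt (m 0) ((n 0 : ℝ) * u)) ∂ν ∂unif) ^ n 0 := by
  set f : Child β r (Fin.tail n) → ℝ := fun p => Real.exp (-(v * wt (m 0) ((n 0 : ℝ) * p.1) *
    cascSum r (Fin.tail m) (Fin.tail n) (fun ω => Y (Fin.cons p.2.1 ω)) p.2.2)) with hf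
  have h1 : phi ν m n Y v
      = ∫ t, ∏ k, (fun _ : Fin (n 0) => f) k (t k) ∂cascLaw ν (r + 1) n := by
    refine integral_congr_ae (Filter.Eventually.of_forall fun t => ?_)
    show Real.exp (-(v * cascSum (r + 1) m n Y t)) = ∏ k, f (t k)
    rw [← Real.exp_sum, Finset.sum_neg_distrib]
    congr 2
    simp only [cascSum, Finset.mul_sum, wt]
    exact Finset.sum_congr rfl fun k _ => by ring
  rw [h1, integral_tree_prod]
  simp only [Finset.prod_const, Finset.card_univ, Fintype.card_fin]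
  congr 1
  have hm : Measurable f := by
    simp only [hf, cascSum_eq_sum_leaves]
    refine ((measurable_const.mul ((measurable_wt _).comp (measurable_const.mul measurable_fst))).mul
      (Finset.measurable_sum _ fun g _ => ?_)).neg.exp
    refine ((measurable_leafW r _ _ g).comp (measurable_snd.comp measurable_snd)).mul
      (hY.comp (measurable_pi_lambda _ fun i => ?_))
    refine Fin.cases ?_ (fun j => ?_) i
    · simp only [Fin.cons_zero]
      exact measurable_fst.comp measurable_snd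
    · simp only [Fin.cons_succ]
      exact (measurable_pi_apply j).comp
        ((measurable_leafMarks r _ g).comp (measurable_snd.comp measurable_snd))
  have hi : Integrable f (childLaw ν r (Fin.tail n)) := by
    refine Integrable.of_bound hm.aestronglyMeasurable 1
      ((child_ae_good ν (ae_good ν r _)).mono fun p hp => ?_)
    rw [Real.norm_eq_abs, abs_of_pos (Real.exp_pos _)]
    exact exp_le_one (fun ω => hY0 _)
      (mul_nonneg hv (wt_nonneg (mul_nonneg (Nat.cast_nonneg _) hp.1.1.le))) hp.2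
  rw [integral_prod _ hi]
  refine integral_congr_ae (hi.prod_right_ae.mono fun u hu => ?_)
  show ∫ q, f (u, q) ∂(ν.prod (cascLaw ν r (Fin.tail n))) = _
  rw [integral_prod _ hu]
  rfl

end Tree

end Vale.Agent.P168.Cascade
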