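import Vale.Agent.P168.Cascade.Basic

/-! Bounds on the Laplace transform of a cascade sum, uniform in the branching numbers. -/

open MeasureTheory ProbabilityTheory Filter Topology Set
open scoped BigOperators NNReal ENNReal

noncomputable section

namespace Vale.Agent.P168.Cascade

open Vale.Agent.P168

/-- The outermost exponent, `1` if there is none. -/
def top : {r : ℕ} → (Fin r → ℝ) → ℝ
  | 0, _ => 1
  | _ + 1, m => m 0

/-- Admissible exponents. -/
structure Exps {r : ℕ} (m : Fin r → ℝ) : Prop where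
  pos : ∀ i, 0 < m i
  lt_one : ∀ i, m i < 1
  mono : StrictMono m

namespace Exps

variable {r : ℕ} {m : Fin (r + 1) → ℝ}

lemma tail (h : Exps m) : Exps (Fin.tail m) :=
  ⟨fun _ => h.pos _, fun _ => h.lt_one _, fun _ _ hij => h.mono (Fin.succ_lt_succ_iff.2 hij)⟩

lemma lt_top (h : Exps m) : m 0 < top (Fin.tail m) := by
  cases r with
  | zero => exact h.lt_one 0
  | succ r => exact h.mono (Fin.succ_pos 0)

lemma top_pos {k : ℕ} {p : Fin k → ℝ} (h : Exps p) : 0 < top p := by
  cases k with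
  | zero => exact one_pos
  | succ k => exact h.pos 0

lemma one_lt_ratio (h : Exps m) : 1 < top (Fin.tail m) / m 0 :=
  (one_lt_div (h.pos 0)).2 h.lt_top

end Exps

/-- The basic dominating function. -/
def dom (c α t : ℝ) : ℝ := min 1 (c * t ^ (-α))

lemma dom_nonneg {c α t : ℝ} (hc : 0 ≤ c) (ht : 0 ≤ t) : 0 ≤ dom c α t :=
  le_min zero_le_one (mul_nonneg hc (Real.rpow_nonneg ht _))

lemma integrableOn_dom {c α : ℝ} (hc : 0 ≤ c) (hα : 1 < α) : IntegrableOn (dom c α) (Ioi 0) := by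
  have hm : Measurable (dom c α) :=
    measurable_const.min (measurable_const.mul (measurable_id.pow_const _))
  rw [← Ioc_union_Ioi_eq_Ioi (zero_le_one : (0 : ℝ) ≤ 1)]
  refine IntegrableOn.union ?_ ?_
  · refine IntegrableOn.of_bound measure_Ioc_lt_top hm.aestronglyMeasurable 1 ?_
    filter_upwards [ae_restrict_mem measurableSet_Ioc] with t ht
    rw [Real.norm_eq_abs, abs_of_nonneg (dom_nonneg hc ht.1.le)]
    exact min_le_left _ _
  · refine ((integrableOn_Ioi_rpow_of_lt (neg_lt_neg hα) one_pos).const_mul c).mono'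
      hm.aestronglyMeasurable ?_
    filter_upwards [ae_restrict_mem measurableSet_Ioi] with t ht
    rw [Real.norm_eq_abs, abs_of_nonneg (dom_nonneg hc (zero_le_one.trans (le_of_lt ht)))]
    exact min_le_right _ _

lemma integral_dom {c α : ℝ} (hc : 0 < c) (hα : 0 < α) :
    ∫ t in Ioi 0, dom c α t = c ^ (1 / α) * ∫ t in Ioi 0, dom 1 α t := by
  have hb : (0 : ℝ) < (c ^ (1 / α))⁻¹ := inv_pos.2 (Real.rpow_pos_of_pos hc _)
  have h := integral_comp_mul_left_Ioi (fun t => dom 1 α t) 0 hb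
  rw [mul_zero, inv_inv, smul_eq_mul] at h
  rw [← h]
  refine setIntegral_congr_fun measurableSet_Ioi fun t ht => ?_
  simp only [dom, one_mul]
  rw [Real.mul_rpow hb.le (le_of_lt ht), Real.inv_rpow (Real.rpow_nonneg hc.le _),
    ← Real.rpow_mul hc.le, ← Real.rpow_neg hc.le]
  congr 2
  rw [show -(1 / α * -α) = 1 by field_simp, Real.rpow_one]

lemma integrableOn_const_Ioc (c a b : ℝ) : IntegrableOn (fun _ => c) (Ioc a b) :=
  integrableOn_const measure_Ioc_lt_top.ne

variable {β : Type} [MeasurableSpace β] (ν : Measure β)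

lemma measurable_cons {r : ℕ} :
    Measurable fun p : β × (Fin r → β) => (Fin.cons p.1 p.2 : Fin (r + 1) → β) := by
  refine measurable_pi_lambda _ fun i => ?_
  refine Fin.cases ?_ (fun j => ?_) i
  · simp only [Fin.cons_zero]
    exact measurable_fst
  · simp only [Fin.cons_succ]
    exact (measurable_pi_apply j).comp measurable_snd

lemma phi_zero (m : Fin 0 → ℝ) (n : Fin 0 → ℕ) (Y : (Fin 0 → β) → ℝ) (v : ℝ) :
    phi ν m n Y v = Real.exp (-(v * Y Fin.elim0)) := by
  show ∫ _t : Unit, Real.exp (-(v * Y Fin.elim0)) ∂Measure.dirac () = _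
  simp

/-- The mean over the mark of one child of the transform of its subtree. -/
def psi {r : ℕ} (m : Fin (r + 1) → ℝ) (n : Fin r → ℕ) (Y : (Fin (r + 1) → β) → ℝ) (v t : ℝ) :
    ℝ :=
  ∫ b, phi ν (Fin.tail m) n (fun ω => Y (Fin.cons b ω)) (v * wt (m 0) t) ∂ν

/-- `n₀` times the expected defect of one child. -/
def defect {r : ℕ} (m : Fin (r + 1) → ℝ) (n : Fin (r + 1) → ℕ) (Y : (Fin (r + 1) → β) → ℝ)
    (v : ℝ) : ℝ :=
  ∫ t in Ioc (0 : ℝ) (n 0), (1 - psi ν m (Fin.tail n) Y v t)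

variable [IsProbabilityMeasure ν]

lemma measurable_psi {r : ℕ} (m : Fin (r + 1) → ℝ) (n : Fin r → ℕ)
    {Y : (Fin (r + 1) → β) → ℝ} (hY : Measurable Y) (v : ℝ) : Measurable (psi ν m n Y v) := by
  have h : Measurable fun p : ℝ × β =>
      phi ν (Fin.tail m) n (fun ω => Y (Fin.cons p.2 ω)) (v * wt (m 0) p.1) :=
    measurable_phi ν (Fin.tail m) n
      (Y := fun (p : ℝ × β) ω => Y (Fin.cons p.2 ω))
      (hY.comp (measurable_cons.comp
        ((measurable_snd.comp measurable_fst).prodMk measurable_snd)))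
      (measurable_const.mul ((measurable_wt _).comp measurable_fst))
  exact h.stronglyMeasurable.integral_prod_right'.measurable

omit [IsProbabilityMeasure ν] in
lemma psi_nonneg {r : ℕ} (m : Fin (r + 1) → ℝ) (n : Fin r → ℕ) (Y : (Fin (r + 1) → β) → ℝ)
    (v t : ℝ) : 0 ≤ psi ν m n Y v t :=
  integral_nonneg fun _ => phi_nonneg ν _ _ _ _

lemma psi_le_one {r : ℕ} (m : Fin (r + 1) → ℝ) (n : Fin r → ℕ) {Y : (Fin (r + 1) → β) → ℝ}
    (hY0 : ∀ ω, 0 ≤ Y ω) {v t : ℝ} (hv : 0 ≤ v) (ht : 0 ≤ t) : psi ν m n Y v t ≤ 1 := by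
  calc psi ν m n Y v t ≤ ∫ _b, (1 : ℝ) ∂ν :=
      integral_mono_of_nonneg (Eventually.of_forall fun _ => phi_nonneg ν _ _ _ _)
        (integrable_const _) (Eventually.of_forall fun _ =>
          phi_le_one ν _ _ (fun _ => hY0 _) (mul_nonneg hv (wt_nonneg ht)))
    _ = 1 := by simp

lemma integrableOn_psi {r : ℕ} (m : Fin (r + 1) → ℝ) (n : Fin r → ℕ)
    {Y : (Fin (r + 1) → β) → ℝ} (hY : Measurable Y) (hY0 : ∀ ω, 0 ≤ Y ω) {v : ℝ} (hv : 0 ≤ v)
    (T : ℝ) : IntegrableOn (psi ν m n Y v) (Ioc 0 T) := by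
  refine IntegrableOn.of_bound measure_Ioc_lt_top
    (measurable_psi ν m n hY v).aestronglyMeasurable 1 ?_
  filter_upwards [ae_restrict_mem measurableSet_Ioc] with t ht
  rw [Real.norm_eq_abs, abs_of_nonneg (psi_nonneg ν _ _ _ _ _)]
  exact psi_le_one ν m n hY0 hv ht.1.le

lemma defect_nonneg {r : ℕ} (m : Fin (r + 1) → ℝ) (n : Fin (r + 1) → ℕ)
    {Y : (Fin (r + 1) → β) → ℝ} (hY0 : ∀ ω, 0 ≤ Y ω) {v : ℝ} (hv : 0 ≤ v) :
    0 ≤ defect ν m n Y v :=
  setIntegral_nonneg measurableSet_Ioc fun _ ht =>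
    sub_nonneg.2 (psi_le_one ν _ _ hY0 hv ht.1.le)

lemma phi_eq_defect {r : ℕ} (m : Fin (r + 1) → ℝ) (n : Fin (r + 1) → ℕ) (hn : 0 < n 0)
    {Y : (Fin (r + 1) → β) → ℝ} (hY : Measurable Y) (hY0 : ∀ ω, 0 ≤ Y ω) {v : ℝ} (hv : 0 ≤ v) :
    phi ν m n Y v = (1 - defect ν m n Y v / n 0) ^ n 0 ∧ defect ν m n Y v ≤ n 0 := by
  have hn' : (0 : ℝ) < n 0 := by exact_mod_cast hn
  have hi := integrableOn_psi ν m (Fin.tail n) hY hY0 hv (n 0)
  have hd : defect ν m n Y v = n 0 - ∫ t in Ioc (0 : ℝ) (n 0), psi ν m (Fin.tail n) Y v t := by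
    rw [defect, integral_sub (integrableOn_const_Ioc _ _ _) hi]
    simp
  refine ⟨?_, ?_⟩
  · rw [phi_succ ν m n hY hY0 hv]
    have h := integral_unif_scale (psi ν m (Fin.tail n) Y v) hn
    simp only [psi] at h ⊢
    rw [h, hd]
    congr 1
    simp only [psi]
    field_simp
    ring
  · rw [hd, sub_le_self_iff]
    exact setIntegral_nonneg measurableSet_Ioc fun _ _ => psi_nonneg ν _ _ _ _ _

omit [IsProbabilityMeasure ν] in
lemma phi_const {r : ℕ} (m : Fin r → ℝ) (n : Fin r → ℕ) (c v : ℝ) :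
    phi ν m n (fun _ => c) v = phi ν m n (fun _ => 1) (v * c) := by
  rw [← phi_smul ν m n (fun _ => 1) c v]
  simp only [mul_one]

lemma phi_at_zero {r : ℕ} (m : Fin r → ℝ) (n : Fin r → ℕ) (Y : (Fin r → β) → ℝ) :
    phi ν m n Y 0 = 1 := by
  simp [phi]

lemma exists_upper : ∀ {r : ℕ} {m : Fin r → ℝ}, Exps m → ∃ a, 0 < a ∧
    ∀ n, (∀ i, 0 < n i) → ∀ v, 0 ≤ v → 1 - phi ν m n (fun _ => 1) v ≤ a * v ^ top m
  | 0, m, _ => ⟨1, one_pos, fun n _ v _ => by
      rw [phi_zero, mul_one, one_mul, show top m = 1 from rfl, Real.rpow_one]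
      linarith [Real.one_sub_le_exp_neg v]⟩
  | r + 1, m, hm => by
    obtain ⟨a', ha', hind⟩ := exists_upper hm.tail
    set m' := top (Fin.tail m)
    have hm' : 0 < m' := hm.tail.top_pos
    have hm0 := hm.pos 0
    have hα := hm.one_lt_ratio
    refine ⟨a' ^ (m 0 / m') * (∫ t in Ioi 0, dom 1 (m' / m 0) t) + 1, ?_, fun n hn v hv => ?_⟩
    · exact add_pos_of_nonneg_of_pos (mul_nonneg (Real.rpow_nonneg ha'.le _)
        (setIntegral_nonneg measurableSet_Ioi fun t ht => dom_nonneg zero_le_one (le_of_lt ht)))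
        one_pos
    show 1 - phi ν m n (fun _ => 1) v ≤ _ * v ^ m 0
    rcases hv.eq_or_lt with rfl | hv0
    · simp [phi_at_zero, Real.zero_rpow hm0.ne']
    obtain ⟨heq, hle⟩ := phi_eq_defect ν m n (hn 0) measurable_const (fun _ => zero_le_one) hv
    have hn' : (0 : ℝ) < n 0 := by exact_mod_cast hn 0
    have hb : 1 - phi ν m n (fun _ => 1) v ≤ defect ν m n (fun _ => 1) v := by
      have hB := one_add_mul_sub_le_pow (a := 1 - defect ν m n (fun _ => 1) v / n 0)
        (by linarith [(div_le_one hn').2 hle]) (n 0)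
      rw [← heq] at hB
      field_simp at hB
      linarith
    have hc : 0 < a' * v ^ m' := mul_pos ha' (Real.rpow_pos_of_pos hv0 _)
    have hd : defect ν m n (fun _ => 1) v ≤ ∫ t in Ioi 0, dom (a' * v ^ m') (m' / m 0) t := by
      refine le_trans (setIntegral_mono_on ?_ ((integrableOn_dom hc.le hα).mono_set
        Ioc_subset_Ioi_self) measurableSet_Ioc fun t ht => ?_)
        (setIntegral_mono_set (integrableOn_dom hc.le hα) ?_ Ioc_subset_Ioi_self.eventuallyLE)
      · exact (integrableOn_const_Ioc _ _ _).sub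
          (integrableOn_psi ν m _ measurable_const (fun _ => zero_le_one) hv _)
      · refine le_min (by linarith [psi_nonneg ν m (Fin.tail n) (fun _ => 1) v t]) ?_
        have hw : 0 ≤ v * wt (m 0) t := mul_nonneg hv (wt_nonneg ht.1.le)
        have := hind (Fin.tail n) (fun i => hn i.succ) _ hw
        calc 1 - psi ν m (Fin.tail n) (fun _ => 1) v t
            = 1 - phi ν (Fin.tail m) (Fin.tail n) (fun _ => 1) (v * wt (m 0) t) := by simp [psi]
          _ ≤ a' * (v * wt (m 0) t) ^ m' := this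
          _ = a' * v ^ m' * t ^ (-(m' / m 0)) := by
            rw [wt, Real.mul_rpow hv (Real.rpow_nonneg ht.1.le _), ← Real.rpow_mul ht.1.le]
            rw [show -(1 / m 0) * m' = -(m' / m 0) by ring]
            ring
      · filter_upwards [ae_restrict_mem measurableSet_Ioi] with t ht
        exact dom_nonneg hc.le (le_of_lt ht)
    rw [integral_dom hc (by linarith)] at hd
    have hpow : (a' * v ^ m') ^ (1 / (m' / m 0)) = a' ^ (m 0 / m') * v ^ m 0 := by
      rw [one_div_div, Real.mul_rpow ha'.le (Real.rpow_nonneg hv _), ← Real.rpow_mul hv,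
        mul_div_cancel₀ _ hm'.ne']
    rw [hpow] at hd
    have hvm : 0 ≤ v ^ m 0 := Real.rpow_nonneg hv _
    calc _ ≤ _ := hb.trans hd
      _ ≤ _ := by ring_nf; linarith

lemma exists_lower : ∀ {r : ℕ} {m : Fin r → ℝ}, Exps m → ∃ D, 0 < D ∧
    ∀ n, (∀ i, 0 < n i) → ∀ v, 0 < v → phi ν m n (fun _ => 1) v ≤ D / v
  | 0, m, _ => ⟨1, one_pos, fun n _ v hv => by
      rw [phi_zero, mul_one, Real.exp_neg, one_div]
      exact inv_anti₀ hv (by linarith [Real.add_one_le_exp v])⟩
  | r + 1, m, hm => by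
    obtain ⟨D', hD', hind⟩ := exists_lower hm.tail
    set p := m 0
    have hp : 0 < p := hm.pos 0
    set k := ⌈(1 / p)⌉₊
    have hk : 1 / p ≤ k := Nat.le_ceil _
    obtain ⟨M, hM⟩ :=
      (tendsto_pow_const_div_const_pow_of_one_lt k (one_lt_two : (1 : ℝ) < 2)).bddAbove_range
    have hM' : ∀ j : ℕ, (j : ℝ) ^ k / 2 ^ j ≤ M := fun j => hM ⟨j, rfl⟩
    have hM0 : 0 ≤ M := le_trans (by positivity) (hM' 1)
    refine ⟨2 * D' * (M + 1 + (k.factorial : ℝ) * 2 ^ k), by positivity, fun n hn v hv => ?_⟩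
    obtain ⟨heq, hle⟩ := phi_eq_defect ν m n (hn 0) measurable_const (fun _ => zero_le_one) hv.le
    have hn' : (0 : ℝ) < n 0 := by exact_mod_cast hn 0
    set J := defect ν m n (fun _ => 1) v
    have hpsi : ∀ t, 0 < t → psi ν m (Fin.tail n) (fun _ => 1) v t ≤ D' / v * t ^ (1 / p) := by
      intro t ht
      have hw : 0 < v * wt (m 0) t := mul_pos hv (Real.rpow_pos_of_pos ht _)
      calc psi ν m (Fin.tail n) (fun _ => 1) v t
          = phi ν (Fin.tail m) (Fin.tail n) (fun _ => 1) (v * wt (m 0) t) := by simp [psi]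
        _ ≤ D' / (v * wt (m 0) t) := hind _ (fun i => hn i.succ) _ hw
        _ = D' / v * t ^ (1 / p) := by
          show D' / (v * t ^ (-(1 / p))) = _
          rw [Real.rpow_neg ht.le]
          field_simp
    set x := v / (2 * D')
    have hx : 0 < x := div_pos hv (by positivity)
    set T := x ^ p
    have hT : 0 < T := Real.rpow_pos_of_pos hx _
    have hTr : T ^ (1 / p) = x := by
      rw [← Real.rpow_mul hx.le, mul_one_div_cancel hp.ne', Real.rpow_one]
    have hhalf : ∀ t, 0 < t → t ≤ T → psi ν m (Fin.tail n) (fun _ => 1) v t ≤ 1 / 2 := by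
      intro t ht htT
      refine (hpsi t ht).trans ?_
      calc D' / v * t ^ (1 / p) ≤ D' / v * x := by
            rw [← hTr]
            gcongr
        _ = 1 / 2 := by simp only [x]; field_simp
    have hconv : ∀ {c : ℝ}, c ≤ M + 1 + (k.factorial : ℝ) * 2 ^ k → c / x ≤
        2 * D' * (M + 1 + (k.factorial : ℝ) * 2 ^ k) / v := by
      intro c hc
      rw [show c / x = 2 * D' * c / v by simp only [x]; field_simp]
      gcongr
    have hi : IntegrableOn (fun t => 1 - psi ν m (Fin.tail n) (fun _ => 1) v t) (Ioc 0 (n 0 : ℝ)) :=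
      (integrableOn_const_Ioc _ _ _).sub
        (integrableOn_psi ν m _ measurable_const (fun _ => zero_le_one) hv.le _)
    rcases le_or_gt (n 0 : ℝ) T with hcase | hcase
    · obtain ⟨j, hj⟩ : ∃ j, n 0 = j + 1 := ⟨n 0 - 1, by have := hn 0; omega⟩
      have hE : 1 - J / n 0 ≤ 1 / 2 ∧ 1 - J / n 0 ≤ D' / v * (n 0 : ℝ) ^ (1 / p) := by
        have h1 : ∀ c : ℝ, (∀ t : ℝ, 0 < t → t ≤ n 0 → psi ν m (Fin.tail n) (fun _ => 1) v t ≤ c) →
            1 - J / n 0 ≤ c := by
          intro c hc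
          have h2 : ∫ _t in Ioc (0 : ℝ) (n 0), (1 - c) ≤ J :=
            setIntegral_mono_on (integrableOn_const_Ioc _ _ _) hi measurableSet_Ioc
              fun t ht => by linarith [hc t ht.1 ht.2]
          simp only [setIntegral_const, Real.volume_real_Ioc_of_le hn'.le, sub_zero,
            smul_eq_mul] at h2
          have h3 : 1 - c ≤ J / n 0 := by rw [le_div_iff₀ hn']; linarith
          linarith
        exact ⟨h1 _ fun t h1 h2 => hhalf t h1 (h2.trans hcase),
          h1 _ fun t h1 h2 => (hpsi t h1).trans (by gcongr)⟩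
      have hE0 : 0 ≤ 1 - J / n 0 := by linarith [(div_le_one hn').2 hle]
      rw [heq]
      calc (1 - J / n 0) ^ n 0 = (1 - J / n 0) * (1 - J / n 0) ^ j := by rw [← pow_succ', ← hj]
        _ ≤ D' / v * (n 0 : ℝ) ^ (1 / p) * (1 / 2) ^ j := by
          exact mul_le_mul hE.2 (pow_le_pow_left₀ hE0 hE.1 j) (pow_nonneg hE0 j) (by positivity)
        _ ≤ D' / v * (n 0 : ℝ) ^ k * (1 / 2) ^ j := by
          gcongr
          rw [← Real.rpow_natCast (n 0 : ℝ) k]
          exact Real.rpow_le_rpow_of_exponent_le (by exact_mod_cast hn 0) hk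
        _ = ((n 0 : ℝ) ^ k / 2 ^ n 0) / x := by
          simp only [x, hj, one_div, inv_pow, pow_succ]
          field_simp
        _ ≤ _ := hconv ((hM' _).trans (by linarith [show (0 : ℝ) ≤ k.factorial * 2 ^ k by positivity]))
    · have hJ : T / 2 ≤ J := by
        refine le_trans ?_ (setIntegral_mono_set hi ?_ (Ioc_subset_Ioc_right hcase.le).eventuallyLE)
        · calc T / 2 = ∫ _t in Ioc (0 : ℝ) T, (1 / 2 : ℝ) := by
                simp [hT.le]; ring
            _ ≤ _ := setIntegral_mono_on (integrableOn_const_Ioc _ _ _)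
                (hi.mono_set (Ioc_subset_Ioc_right hcase.le)) measurableSet_Ioc fun t ht => by
                linarith [hhalf t ht.1 ht.2]
        · filter_upwards [ae_restrict_mem measurableSet_Ioc] with t ht
          exact sub_nonneg.2 (psi_le_one ν _ _ (fun _ => zero_le_one) hv.le ht.1.le)
      rw [heq]
      calc (1 - J / n 0) ^ n 0 ≤ Real.exp (-J) := Real.one_sub_div_pow_le_exp_neg hle
        _ ≤ Real.exp (-(T / 2)) := Real.exp_le_exp.2 (neg_le_neg hJ)
        _ ≤ (1 + (k.factorial : ℝ) * 2 ^ k) / x := by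
          rw [le_div_iff₀ hx, Real.exp_neg, ← div_eq_inv_mul, div_le_iff₀ (Real.exp_pos _)]
          have h1 := Real.pow_div_factorial_le_exp (x := T / 2) (by positivity) k
          rw [div_pow, div_div, div_le_iff₀ (by positivity)] at h1
          rcases le_total T 1 with hT1 | hT1
          · have : x ≤ 1 := by
              rw [← hTr]; exact Real.rpow_le_one hT.le hT1 (by positivity)
            nlinarith [Real.one_le_exp (show (0 : ℝ) ≤ T / 2 by positivity),
              show (0 : ℝ) ≤ k.factorial * 2 ^ k by positivity]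
          · have : x ≤ T ^ k := by
              rw [← hTr, ← Real.rpow_natCast T k]
              exact Real.rpow_le_rpow_of_exponent_le hT1 hk
            nlinarith [Real.exp_pos (T / 2)]
        _ ≤ _ := hconv (by linarith)

lemma exists_bounds {r : ℕ} {m : Fin r → ℝ} (hm : Exps m) {C : ℝ} (hC : 0 < C) :
    ∃ a D, 0 < a ∧ 0 < D ∧ ∀ (n : Fin r → ℕ), (∀ i, 0 < n i) → ∀ Y : (Fin r → β) → ℝ,
      Measurable Y → (∀ ω, C⁻¹ ≤ Y ω ∧ Y ω ≤ C) →
        (∀ v, 0 ≤ v → 1 - phi ν m n Y v ≤ a * v ^ top m) ∧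
          ∀ v, 0 < v → phi ν m n Y v ≤ D / v := by
  obtain ⟨a, ha, hu⟩ := exists_upper ν hm
  obtain ⟨D, hD, hl⟩ := exists_lower ν hm
  refine ⟨a * C ^ top m, D * C, by positivity, by positivity, fun n hn Y hY hYb => ?_⟩
  have h0 : ∀ ω, 0 ≤ Y ω := fun ω => (inv_nonneg.2 hC.le).trans (hYb ω).1
  refine ⟨fun v hv => ?_, fun v hv => ?_⟩
  · have h1 := phi_anti ν m n hY measurable_const h0 (Y' := fun _ => C) (fun ω => (hYb ω).2) hv
    rw [phi_const] at h1
    have h2 := hu n hn (v * C) (mul_nonneg hv hC.le)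
    rw [Real.mul_rpow hv hC.le] at h2
    linarith
  · have h1 := phi_anti ν m n (Y := fun _ => C⁻¹) measurable_const hY
      (fun _ => inv_nonneg.2 hC.le) (fun ω => (hYb ω).1) hv.le
    rw [phi_const] at h1
    refine h1.trans ((hl n hn (v * C⁻¹) (mul_pos hv (inv_pos.2 hC))).trans ?_)
    rw [← div_eq_mul_inv v C, div_div_eq_mul_div]

end Vale.Agent.P168.Cascade
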