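import Vale.Agent.P168.Cascade.Laplace

/-! Derivatives of nested means along a direction, and the tilted law of a new path. -/

open MeasureTheory ProbabilityTheory Filter Topology Set
open scoped BigOperators NNReal ENNReal

noncomputable section

namespace Vale.Agent.P168.Cascade

open Vale.Agent.P168

variable {β : Type} [MeasurableSpace β] (ν : Measure β)

/-- The nested mean given the first `p` marks. -/
def cond : {r : ℕ} → (Fin r → ℝ) → ((Fin r → β) → ℝ) → ℕ → (Fin r → β) → ℝ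
  | 0, _, Y, _, _ => Y Fin.elim0
  | _ + 1, m, Y, 0, _ => genNested ν m Y
  | _ + 1, m, Y, p + 1, ρ => cond (Fin.tail m) (fun ω => Y (Fin.cons (ρ 0) ω)) p (Fin.tail ρ)

/-- The logarithmic derivative of the nested mean in direction `h`. -/
def logD : {r : ℕ} → (Fin r → ℝ) → ((Fin r → β) → ℝ) → ((Fin r → β) → ℝ) → ℝ
  | 0, _, Y, h => h Fin.elim0 / Y Fin.elim0
  | _ + 1, m, Y, h =>
    (∫ b, genNested ν (Fin.tail m) (fun ω => Y (Fin.cons b ω)) ^ m 0 *
        logD (Fin.tail m) (fun ω => Y (Fin.cons b ω)) (fun ω => h (Fin.cons b ω)) ∂ν) /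
      ∫ b, genNested ν (Fin.tail m) (fun ω => Y (Fin.cons b ω)) ^ m 0 ∂ν

/-- The logarithmic derivative given the first `p` marks. -/
def condD : {r : ℕ} → (Fin r → ℝ) → ((Fin r → β) → ℝ) → ((Fin r → β) → ℝ) → ℕ → (Fin r → β) → ℝ
  | 0, m, Y, h, _, _ => logD ν m Y h
  | _ + 1, m, Y, h, 0, _ => logD ν m Y h
  | _ + 1, m, Y, h, p + 1, ρ => condD (Fin.tail m) (fun ω => Y (Fin.cons (ρ 0) ω))
      (fun ω => h (Fin.cons (ρ 0) ω)) p (Fin.tail ρ)

/-- A bounded positive function. -/
structure Bdd {r : ℕ} (C : ℝ) (Y : (Fin r → β) → ℝ) : Prop where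
  pos : 0 < C
  meas : Measurable Y
  mem : ∀ ω, C⁻¹ ≤ Y ω ∧ Y ω ≤ C

lemma Bdd.cons {r : ℕ} {C : ℝ} {Y : (Fin (r + 1) → β) → ℝ} (h : Bdd C Y) (b : β) :
    Bdd C fun ω => Y (Fin.cons b ω) :=
  ⟨h.pos, h.meas.comp (measurable_cons.comp (measurable_const.prodMk measurable_id)),
    fun _ => h.mem _⟩

lemma Bdd.gt_zero {r : ℕ} {C : ℝ} {Y : (Fin r → β) → ℝ} (h : Bdd C Y) (ω : Fin r → β) :
    0 < Y ω :=
  (inv_pos.2 h.pos).trans_le (h.mem ω).1

omit [MeasurableSpace β] in
lemma cons_tail {r : ℕ} (ρ : Fin (r + 1) → β) : (Fin.cons (ρ 0) (Fin.tail ρ) : Fin (r+1) → β) = ρ :=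
  Fin.cons_self_tail ρ

lemma measurable_tail {r : ℕ} : Measurable fun ρ : Fin (r + 1) → β => Fin.tail ρ :=
  measurable_pi_lambda _ fun i => measurable_pi_apply i.succ

variable [IsProbabilityMeasure ν]

omit [IsProbabilityMeasure ν] in
lemma cond_zero {r : ℕ} (m : Fin r → ℝ) (Y : (Fin r → β) → ℝ) (ρ : Fin r → β) :
    cond ν m Y 0 ρ = genNested ν m Y := by
  cases r <;> rfl

omit [IsProbabilityMeasure ν] in
lemma condD_zero {r : ℕ} (m : Fin r → ℝ) (Y h : (Fin r → β) → ℝ) (ρ : Fin r → β) :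
    condD ν m Y h 0 ρ = logD ν m Y h := by
  cases r <;> rfl

omit [IsProbabilityMeasure ν] in
lemma cond_self : ∀ {r : ℕ} (m : Fin r → ℝ) (Y : (Fin r → β) → ℝ) (ρ : Fin r → β),
    cond ν m Y r ρ = Y ρ
  | 0, _, Y, ρ => congrArg Y (Subsingleton.elim _ ρ)
  | r + 1, m, Y, ρ => (cond_self (Fin.tail m) _ (Fin.tail ρ)).trans
      (congrArg Y (cons_tail ρ))

omit [IsProbabilityMeasure ν] in
lemma condD_self : ∀ {r : ℕ} (m : Fin r → ℝ) (Y h : (Fin r → β) → ℝ) (ρ : Fin r → β),
    condD ν m Y h r ρ = h ρ / Y ρ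
  | 0, _, Y, h, ρ => by rw [Subsingleton.elim ρ Fin.elim0]; rfl
  | r + 1, m, Y, h, ρ => by
    refine (condD_self (Fin.tail m) _ _ (Fin.tail ρ)).trans ?_
    show h (Fin.cons (ρ 0) (Fin.tail ρ)) / Y (Fin.cons (ρ 0) (Fin.tail ρ)) = _
    rw [cons_tail]

omit [IsProbabilityMeasure ν] in
lemma cond_prefix : ∀ {r : ℕ} (m : Fin r → ℝ) (Y : (Fin r → β) → ℝ) (p : ℕ) (ρ ρ' : Fin r → β),
    (∀ i : Fin r, i.val < p → ρ i = ρ' i) → cond ν m Y p ρ = cond ν m Y p ρ'
  | 0, _, _, _, _, _, _ => rfl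
  | r + 1, _, _, 0, _, _, _ => rfl
  | r + 1, m, Y, p + 1, ρ, ρ', h => by
    show cond ν _ (fun ω => Y (Fin.cons (ρ 0) ω)) p _ = cond ν _ (fun ω => Y (Fin.cons (ρ' 0) ω)) p _
    rw [h 0 p.succ_pos]
    exact cond_prefix _ _ p _ _ fun i hi => h i.succ (Nat.succ_lt_succ hi)

omit [IsProbabilityMeasure ν] in
lemma condD_prefix : ∀ {r : ℕ} (m : Fin r → ℝ) (Y g : (Fin r → β) → ℝ) (p : ℕ)
    (ρ ρ' : Fin r → β),
    (∀ i : Fin r, i.val < p → ρ i = ρ' i) → condD ν m Y g p ρ = condD ν m Y g p ρ'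
  | 0, _, _, _, _, _, _, _ => rfl
  | r + 1, _, _, _, 0, _, _, _ => rfl
  | r + 1, m, Y, g, p + 1, ρ, ρ', h => by
    show condD ν _ (fun ω => Y (Fin.cons (ρ 0) ω)) (fun ω => g (Fin.cons (ρ 0) ω)) p _ =
      condD ν _ (fun ω => Y (Fin.cons (ρ' 0) ω)) (fun ω => g (Fin.cons (ρ' 0) ω)) p _
    rw [h 0 p.succ_pos]
    exact condD_prefix _ _ _ p _ _ fun i hi => h i.succ (Nat.succ_lt_succ hi)

lemma cond_mem {C : ℝ} : ∀ {r : ℕ} {m : Fin r → ℝ}, Exps m → ∀ {Y : (Fin r → β) → ℝ}, Bdd C Y →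
    ∀ (p : ℕ) (ρ : Fin r → β), C⁻¹ ≤ cond ν m Y p ρ ∧ cond ν m Y p ρ ≤ C
  | 0, _, _, _, hY, _, _ => hY.mem _
  | _ + 1, _, hm, _, hY, 0, _ => genNested_mem ν hY.pos hm hY.meas hY.mem
  | r + 1, _, hm, _, hY, p + 1, ρ => cond_mem hm.tail (hY.cons (ρ 0)) p _

lemma measurable_cond : ∀ {r : ℕ} (m : Fin r → ℝ) (p : ℕ) {δ : Type} [MeasurableSpace δ]
    {Y : δ → (Fin r → β) → ℝ} {ρ : δ → Fin r → β}, Measurable (Function.uncurry Y) →
    Measurable ρ → Measurable fun d => cond ν m (Y d) p (ρ d)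
  | 0, _, _, _, _, _, _, hY, _ => hY.comp (measurable_id.prodMk measurable_const)
  | _ + 1, m, 0, _, _, _, _, hY, _ => measurable_genNested ν m hY
  | r + 1, m, p + 1, δ, _, Y, ρ, hY, hρ =>
    measurable_cond (Fin.tail m) p (Y := fun d ω => Y d (Fin.cons (ρ d 0) ω))
      (hY.comp (measurable_fst.prodMk (measurable_cons.comp
        (((measurable_pi_apply 0).comp (hρ.comp measurable_fst)).prodMk measurable_snd))))
      (measurable_tail.comp hρ)

lemma measurable_logD : ∀ {r : ℕ} (m : Fin r → ℝ) {δ : Type} [MeasurableSpace δ]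
    {Y h : δ → (Fin r → β) → ℝ}, Measurable (Function.uncurry Y) →
    Measurable (Function.uncurry h) → Measurable fun d => logD ν m (Y d) (h d)
  | 0, _, _, _, _, _, hY, hh =>
    (hh.comp (measurable_id.prodMk measurable_const)).div
      (hY.comp (measurable_id.prodMk measurable_const))
  | r + 1, m, δ, _, Y, h, hY, hh => by
    have hmap : Measurable fun q : (δ × β) × (Fin r → β) =>
        (q.1.1, (Fin.cons q.1.2 q.2 : Fin (r + 1) → β)) :=
      (measurable_fst.comp measurable_fst).prodMk (measurable_cons.comp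
        ((measurable_snd.comp measurable_fst).prodMk measurable_snd))
    have h1 : Measurable fun q : δ × β =>
        genNested ν (Fin.tail m) (fun ω => Y q.1 (Fin.cons q.2 ω)) ^ m 0 :=
      (measurable_genNested ν (Fin.tail m) (Y := fun (q : δ × β) ω => Y q.1 (Fin.cons q.2 ω))
        (hY.comp hmap)).pow_const _
    have h2 : Measurable fun q : δ × β =>
        logD ν (Fin.tail m) (fun ω => Y q.1 (Fin.cons q.2 ω)) (fun ω => h q.1 (Fin.cons q.2 ω)) :=
      measurable_logD (Fin.tail m) (Y := fun (q : δ × β) ω => Y q.1 (Fin.cons q.2 ω))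
        (h := fun (q : δ × β) ω => h q.1 (Fin.cons q.2 ω)) (hY.comp hmap) (hh.comp hmap)
    exact ((h1.mul h2).stronglyMeasurable.integral_prod_right').measurable.div
      (h1.stronglyMeasurable.integral_prod_right').measurable

lemma measurable_condD : ∀ {r : ℕ} (m : Fin r → ℝ) (p : ℕ) {δ : Type} [MeasurableSpace δ]
    {Y h : δ → (Fin r → β) → ℝ} {ρ : δ → Fin r → β}, Measurable (Function.uncurry Y) →
    Measurable (Function.uncurry h) → Measurable ρ →
    Measurable fun d => condD ν m (Y d) (h d) p (ρ d)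
  | 0, m, _, _, _, _, _, _, hY, hh, _ => measurable_logD ν m hY hh
  | _ + 1, m, 0, _, _, _, _, _, hY, hh, _ => measurable_logD ν m hY hh
  | r + 1, m, p + 1, δ, _, Y, h, ρ, hY, hh, hρ => by
    have hmap : Measurable fun q : δ × (Fin r → β) =>
        (q.1, (Fin.cons (ρ q.1 0) q.2 : Fin (r + 1) → β)) :=
      measurable_fst.prodMk (measurable_cons.comp
        (((measurable_pi_apply 0).comp (hρ.comp measurable_fst)).prodMk measurable_snd))
    exact measurable_condD (Fin.tail m) p (Y := fun d ω => Y d (Fin.cons (ρ d 0) ω))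
      (h := fun d ω => h d (Fin.cons (ρ d 0) ω)) (hY.comp hmap) (hh.comp hmap)
      (measurable_tail.comp hρ)

lemma rpow_mem {C p x : ℝ} (hC : 0 < C) (hp : 0 ≤ p) (h1 : C⁻¹ ≤ x) (h2 : x ≤ C) :
    C⁻¹ ^ p ≤ x ^ p ∧ x ^ p ≤ C ^ p ∧ 0 < x ^ p :=
  have hx : 0 < x := (inv_pos.2 hC).trans_le h1
  ⟨Real.rpow_le_rpow (inv_nonneg.2 hC.le) h1 hp, Real.rpow_le_rpow hx.le h2 hp,
    Real.rpow_pos_of_pos hx _⟩

/-- Facts about the weights `G_b ^ m₀`. -/
lemma weight_facts {C : ℝ} {r : ℕ} {m : Fin (r + 1) → ℝ} (hm : Exps m)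
    {Y : (Fin (r + 1) → β) → ℝ} (hY : Bdd C Y) :
    Integrable (fun b => genNested ν (Fin.tail m) (fun ω => Y (Fin.cons b ω)) ^ m 0) ν ∧
      0 < ∫ b, genNested ν (Fin.tail m) (fun ω => Y (Fin.cons b ω)) ^ m 0 ∂ν := by
  have h := fun b => genNested_mem ν hY.pos hm.tail (hY.cons b).meas (hY.cons b).mem
  have hb := fun b => rpow_mem hY.pos (hm.pos 0).le (h b).1 (h b).2
  have hi : Integrable (fun b => genNested ν (Fin.tail m) (fun ω => Y (Fin.cons b ω)) ^ m 0) ν :=
    Integrable.of_bound ((measurable_genNested_cons ν _ hY.meas).pow_const _).aestronglyMeasurable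
      (C ^ m 0) (Eventually.of_forall fun b => by
        rw [Real.norm_eq_abs, abs_of_pos (hb b).2.2]; exact (hb b).2.1)
  refine ⟨hi, lt_of_lt_of_le (Real.rpow_pos_of_pos (inv_pos.2 hY.pos) (m 0)) ?_⟩
  simpa using integral_mono (integrable_const _) hi fun b => (hb b).1

lemma abs_logD_le {C : ℝ} : ∀ {r : ℕ} {m : Fin r → ℝ}, Exps m → ∀ {Y h : (Fin r → β) → ℝ},
    Bdd C Y → Measurable h → (∀ ω, |h ω| ≤ 1) → |logD ν m Y h| ≤ C
  | 0, _, _, Y, h, hY, _, hh => by
    show |h Fin.elim0 / Y Fin.elim0| ≤ C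
    rw [abs_div, abs_of_pos (hY.gt_zero _), div_le_iff₀ (hY.gt_zero _)]
    refine (hh _).trans ?_
    calc (1 : ℝ) = C * C⁻¹ := (mul_inv_cancel₀ hY.pos.ne').symm
      _ ≤ C * Y Fin.elim0 := mul_le_mul_of_nonneg_left (hY.mem _).1 hY.pos.le
  | r + 1, m, hm, Y, h, hY, hhm, hh => by
    obtain ⟨hi, hpos⟩ := weight_facts ν hm hY
    have hD : ∀ b, |logD ν (Fin.tail m) (fun ω => Y (Fin.cons b ω))
        (fun ω => h (Fin.cons b ω))| ≤ C := fun b => abs_logD_le hm.tail (hY.cons b)
      (hhm.comp (measurable_cons.comp (measurable_const.prodMk measurable_id))) fun ω => hh _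
    show |_ / _| ≤ C
    rw [abs_div, abs_of_pos hpos, div_le_iff₀ hpos, ← integral_const_mul]
    refine abs_integral_le_integral_abs.trans (integral_mono_of_nonneg
      (Eventually.of_forall fun b => abs_nonneg _) (hi.const_mul C)
      (Eventually.of_forall fun b => ?_))
    have hw := (rpow_mem hY.pos (hm.pos 0).le (genNested_mem ν hY.pos hm.tail (hY.cons b).meas
      (hY.cons b).mem).1 (genNested_mem ν hY.pos hm.tail (hY.cons b).meas (hY.cons b).mem).2).2.2
    simp only [abs_mul, abs_of_pos hw]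
    rw [mul_comm C]
    exact mul_le_mul_of_nonneg_left (hD b) hw.le

lemma abs_condD_le {C : ℝ} : ∀ {r : ℕ} {m : Fin r → ℝ}, Exps m → ∀ {Y h : (Fin r → β) → ℝ},
    Bdd C Y → Measurable h → (∀ ω, |h ω| ≤ 1) → ∀ (p : ℕ) (ρ : Fin r → β),
    |condD ν m Y h p ρ| ≤ C
  | 0, _, hm, _, _, hY, hhm, hh, _, _ => abs_logD_le ν hm hY hhm hh
  | _ + 1, _, hm, _, _, hY, hhm, hh, 0, _ => abs_logD_le ν hm hY hhm hh
  | r + 1, _, hm, _, _, hY, hhm, hh, p + 1, ρ => abs_condD_le hm.tail (hY.cons (ρ 0))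
      (hhm.comp (measurable_cons.comp (measurable_const.prodMk measurable_id))) (fun _ => hh _) p _

/-- A segment `Y + ε h` of bounded positive functions. -/
structure Segment {r : ℕ} (C δ : ℝ) (Y h : (Fin r → β) → ℝ) : Prop where
  meas : Measurable h
  abs_le : ∀ ω, |h ω| ≤ 1
  bdd : ∀ e, |e| < δ → Bdd C fun ω => Y ω + e * h ω

lemma Segment.cons {r : ℕ} {C δ : ℝ} {Y h : (Fin (r + 1) → β) → ℝ} (H : Segment C δ Y h) (b : β) :
    Segment C δ (fun ω => Y (Fin.cons b ω)) fun ω => h (Fin.cons b ω) :=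
  ⟨H.meas.comp (measurable_cons.comp (measurable_const.prodMk measurable_id)),
    fun _ => H.abs_le _, fun e he => (H.bdd e he).cons b⟩

lemma ball_nhds {δ e : ℝ} (he : |e| < δ) : {x : ℝ | |x| < δ} ∈ 𝓝 e :=
  (isOpen_lt continuous_abs continuous_const).mem_nhds he

lemma hasDerivAt_genNested : ∀ {r : ℕ} {m : Fin r → ℝ}, Exps m → ∀ {C δ : ℝ}
    {Y h : (Fin r → β) → ℝ}, Segment C δ Y h → ∀ {e : ℝ}, |e| < δ →
    HasDerivAt (fun x => genNested ν m fun ω => Y ω + x * h ω)
      (genNested ν m (fun ω => Y ω + e * h ω) * logD ν m (fun ω => Y ω + e * h ω) h) e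
  | 0, m, _, C, δ, Y, h, H, e, he => by
    show HasDerivAt (fun x => Y Fin.elim0 + x * h Fin.elim0)
      ((Y Fin.elim0 + e * h Fin.elim0) * (h Fin.elim0 / (Y Fin.elim0 + e * h Fin.elim0))) e
    rw [mul_div_cancel₀ _ ((H.bdd e he).gt_zero Fin.elim0).ne']
    simpa using ((hasDerivAt_id e).mul_const (h Fin.elim0)).const_add (Y Fin.elim0)
  | r + 1, m, hm, C, δ, Y, h, H, e, he => by
    have hp := hm.pos 0
    set G : ℝ → β → ℝ := fun x b =>
      genNested ν (Fin.tail m) fun ω => Y (Fin.cons b ω) + x * h (Fin.cons b ω)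
    set L : ℝ → β → ℝ := fun x b => logD ν (Fin.tail m)
      (fun ω => Y (Fin.cons b ω) + x * h (Fin.cons b ω)) fun ω => h (Fin.cons b ω)
    have hG : ∀ x, |x| < δ → ∀ b, C⁻¹ ≤ G x b ∧ G x b ≤ C := fun x hx b =>
      genNested_mem ν (H.bdd x hx).pos hm.tail ((H.cons b).bdd x hx).meas ((H.cons b).bdd x hx).mem
    have hLb : ∀ x, |x| < δ → ∀ b, |L x b| ≤ C := fun x hx b =>
      abs_logD_le ν hm.tail ((H.cons b).bdd x hx) (H.cons b).meas (H.cons b).abs_le
    have hC := (H.bdd e he).pos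
    obtain ⟨hi, hpos⟩ := weight_facts ν hm (H.bdd e he)
    have hGm : ∀ x, |x| < δ → Measurable (G x) := fun x hx =>
      measurable_genNested_cons ν _ (H.bdd x hx).meas
    have hmeasL : Measurable (L e) := measurable_logD ν (Fin.tail m)
      (Y := fun b ω => Y (Fin.cons b ω) + e * h (Fin.cons b ω))
      (h := fun b ω => h (Fin.cons b ω)) ((H.bdd e he).meas.comp measurable_cons)
      (H.meas.comp measurable_cons)
    have hbound : ∀ b x, |x| < δ → ‖m 0 * (G x b ^ m 0 * L x b)‖ ≤ m 0 * (C ^ m 0 * C) := by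
      intro b x hx
      have hb := rpow_mem hC hp.le (hG x hx b).1 (hG x hx b).2
      rw [Real.norm_eq_abs, abs_mul, abs_mul, abs_of_pos hp, abs_of_pos hb.2.2]
      exact mul_le_mul_of_nonneg_left
        (mul_le_mul hb.2.1 (hLb x hx b) (abs_nonneg _) (Real.rpow_nonneg hC.le _)) hp.le
    have hdiff : ∀ b x, |x| < δ →
        HasDerivAt (fun y => G y b ^ m 0) (m 0 * (G x b ^ m 0 * L x b)) x := by
      intro b x hx
      have h0 : 0 < G x b := (inv_pos.2 hC).trans_le (hG x hx b).1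
      refine ((hasDerivAt_genNested hm.tail (H.cons b) hx).rpow_const
        (p := m 0) (Or.inl h0.ne')).congr_deriv ?_
      show G x b * L x b * m 0 * G x b ^ (m 0 - 1) = m 0 * (G x b ^ m 0 * L x b)
      rw [Real.rpow_sub_one h0.ne']
      field_simp
    obtain ⟨_, hI⟩ := hasDerivAt_integral_of_dominated_loc_of_deriv_le (μ := ν) (x₀ := e)
      (F := fun x b => G x b ^ m 0) (F' := fun x b => m 0 * (G x b ^ m 0 * L x b))
      (bound := fun _ => m 0 * (C ^ m 0 * C)) (ball_nhds he)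
      (by filter_upwards [ball_nhds he] with x hx using ((hGm x hx).pow_const _).aestronglyMeasurable)
      hi (((hGm e he).pow_const _).mul hmeasL |>.const_mul _).aestronglyMeasurable
      (Eventually.of_forall fun b x hx => hbound b x hx) (integrable_const _)
      (Eventually.of_forall fun b x hx => hdiff b x hx)
    rw [integral_const_mul] at hI
    have hG' := hI.rpow_const (p := 1 / m 0) (Or.inl hpos.ne')
    refine hG'.congr_deriv ?_
    show m 0 * (∫ b, G e b ^ m 0 * L e b ∂ν) * (1 / m 0) *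
        (∫ b, G e b ^ m 0 ∂ν) ^ (1 / m 0 - 1) =
      (∫ b, G e b ^ m 0 ∂ν) ^ (1 / m 0) *
        ((∫ b, G e b ^ m 0 * L e b ∂ν) / ∫ b, G e b ^ m 0 ∂ν)
    have hne : (∫ b, G e b ^ m 0 ∂ν) ≠ 0 := hpos.ne'
    rw [Real.rpow_sub_one hne]
    field_simp

lemma hasDerivAt_log_cond : ∀ {r : ℕ} {m : Fin r → ℝ}, Exps m → ∀ {C δ : ℝ}
    {Y h : (Fin r → β) → ℝ}, Segment C δ Y h → ∀ {e : ℝ}, |e| < δ → ∀ (p : ℕ) (ρ : Fin r → β),
    HasDerivAt (fun x => Real.log (cond ν m (fun ω => Y ω + x * h ω) p ρ))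
      (condD ν m (fun ω => Y ω + e * h ω) h p ρ) e := by
  have key : ∀ {r : ℕ} {m : Fin r → ℝ}, Exps m → ∀ {C δ : ℝ}
      {Y h : (Fin r → β) → ℝ}, Segment C δ Y h → ∀ {e : ℝ}, |e| < δ →
      HasDerivAt (fun x => Real.log (genNested ν m fun ω => Y ω + x * h ω))
        (logD ν m (fun ω => Y ω + e * h ω) h) e := by
    intro r m hm C δ Y h H e he
    have h0 : 0 < genNested ν m fun ω => Y ω + e * h ω := (inv_pos.2 (H.bdd e he).pos).trans_le
      (genNested_mem ν (H.bdd e he).pos hm (H.bdd e he).meas (H.bdd e he).mem).1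
    exact ((hasDerivAt_genNested ν hm H he).log h0.ne').congr_deriv
      (mul_div_cancel_left₀ _ h0.ne')
  intro r
  induction r with
  | zero => intro m hm C δ Y h H e he p ρ; exact key hm H he
  | succ r ih =>
    intro m hm C δ Y h H e he p ρ
    cases p with
    | zero => exact key hm H he
    | succ p => exact ih hm.tail (H.cons (ρ 0)) he p (Fin.tail ρ)

/-- Integration over the first coordinate first. -/
lemma integral_pi_succ {r : ℕ} {f : (Fin (r + 1) → β) → ℝ} (hf : Measurable f) {B : ℝ}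
    (hb : ∀ τ, |f τ| ≤ B) :
    ∫ τ, f τ ∂(Measure.pi fun _ => ν) =
      ∫ b, ∫ τ, f (Fin.cons b τ) ∂(Measure.pi fun _ : Fin r => ν) ∂ν := by
  have h := (measurePreserving_piFinSuccAbove (fun _ : Fin (r + 1) => ν) 0).symm
  rw [← h.integral_comp (MeasurableEquiv.measurableEmbedding _) f]
  have he : ∀ q : β × (Fin r → β),
      (MeasurableEquiv.piFinSuccAbove (fun _ : Fin (r + 1) => β) 0).symm q = Fin.cons q.1 q.2 := by
    intro q
    simp [MeasurableEquiv.piFinSuccAbove, Fin.consEquiv]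
  simp only [he]
  rw [integral_prod]
  exact Integrable.of_bound (hf.comp measurable_cons).aestronglyMeasurable B
    (Eventually.of_forall fun _ => by rw [Real.norm_eq_abs]; exact hb _)

/-- The log density of the part below level `q` of a new path, including `1 / Y`. -/
def tiltLog {r : ℕ} (m : Fin r → ℝ) (Y : (Fin r → β) → ℝ) (q : ℕ) (ρ : Fin r → β) : ℝ :=
  (∑ p : Fin r, if q ≤ p.val then
      m p * (Real.log (cond ν m Y (p.val + 1) ρ) - Real.log (cond ν m Y p.val ρ)) else 0) -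
    Real.log (Y ρ)

/-- A path following `ρ` above level `q` and `τ` below. -/
def glue {r : ℕ} (q : ℕ) (ρ τ : Fin r → β) : Fin r → β := fun p => if p.val < q then ρ p else τ p

lemma measurable_tiltLog {r : ℕ} (m : Fin r → ℝ) {Y : (Fin r → β) → ℝ} (hY : Measurable Y)
    (q : ℕ) : Measurable (tiltLog ν m Y q) := by
  refine (Finset.measurable_sum _ fun p _ => ?_).sub hY.log
  split_ifs
  · have h := fun i => measurable_cond ν m i (Y := fun _ : Fin r → β => Y) (ρ := fun ρ => ρ)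
      (hY.comp measurable_snd) measurable_id
    exact ((h _).log.sub (h _).log).const_mul _
  · exact measurable_const

lemma abs_log_le {C x : ℝ} (hC : 0 < C) (h1 : C⁻¹ ≤ x) (h2 : x ≤ C) :
    |Real.log x| ≤ |Real.log C| := by
  have hx : 0 < x := (inv_pos.2 hC).trans_le h1
  have a := Real.log_le_log (inv_pos.2 hC) h1
  have b := Real.log_le_log hx h2
  rw [Real.log_inv] at a
  exact abs_le.2 ⟨by linarith [le_abs_self (Real.log C)], b.trans (le_abs_self _)⟩

lemma tiltLog_le {C : ℝ} {r : ℕ} {m : Fin r → ℝ} (hm : Exps m) {Y : (Fin r → β) → ℝ}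
    (hY : Bdd C Y) (q : ℕ) (ρ : Fin r → β) :
    tiltLog ν m Y q ρ ≤ (2 * r + 1) * |Real.log C| := by
  have h := fun i => abs_log_le hY.pos (cond_mem ν hm hY i ρ).1 (cond_mem ν hm hY i ρ).2
  have hs : ∀ p : Fin r, (if q ≤ p.val then
      m p * (Real.log (cond ν m Y (p.val + 1) ρ) - Real.log (cond ν m Y p.val ρ)) else 0) ≤
      2 * |Real.log C| := by
    intro p
    split_ifs
    · refine (le_abs_self _).trans ?_
      rw [abs_mul, abs_of_pos (hm.pos p)]
      calc m p * |Real.log (cond ν m Y (p.val + 1) ρ) - Real.log (cond ν m Y p.val ρ)|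
          ≤ 1 * (|Real.log C| + |Real.log C|) :=
            mul_le_mul (hm.lt_one p).le ((abs_sub _ _).trans (add_le_add (h _) (h _)))
              (abs_nonneg _) zero_le_one
        _ = _ := by ring
    · positivity
  have hsum := Finset.sum_le_sum fun p (_ : p ∈ (Finset.univ : Finset (Fin r))) => hs p
  rw [Finset.sum_const, Finset.card_univ, Fintype.card_fin, nsmul_eq_mul] at hsum
  have := abs_log_le hY.pos (hY.mem ρ).1 (hY.mem ρ).2
  simp only [tiltLog]
  linarith [neg_abs_le (Real.log (Y ρ))]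

lemma measurable_glue {r : ℕ} (q : ℕ) :
    Measurable fun z : (Fin r → β) × (Fin r → β) => glue q z.1 z.2 := by
  refine measurable_pi_lambda _ fun p => ?_
  by_cases h : p.val < q
  · simp only [glue, if_pos h]
    exact (measurable_pi_apply p).comp measurable_fst
  · simp only [glue, if_neg h]
    exact (measurable_pi_apply p).comp measurable_snd

/-- The tilted law of a new path reproduces the logarithmic derivative. -/
lemma tilt_integral {C : ℝ} : ∀ {r : ℕ} {m : Fin r → ℝ}, Exps m → ∀ {Y h : (Fin r → β) → ℝ},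
    Bdd C Y → Measurable h → (∀ ω, |h ω| ≤ 1) → ∀ (q : ℕ) (ρ : Fin r → β), q ≤ r →
    ∫ τ, Real.exp (tiltLog ν m Y q (glue q ρ τ)) * h (glue q ρ τ) ∂(Measure.pi fun _ => ν) =
      condD ν m Y h q ρ
  | 0, m, _, Y, h, hY, _, _, q, ρ, hq => by
    have he : ∀ τ : Fin 0 → β, Real.exp (tiltLog ν m Y q (glue q ρ τ)) * h (glue q ρ τ) =
        h Fin.elim0 / Y Fin.elim0 := fun τ => by
      rw [Subsingleton.elim (glue q ρ τ) Fin.elim0]
      simp [tiltLog, Real.exp_neg, Real.exp_log (hY.gt_zero _), div_eq_inv_mul]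
    simp [he, condD, logD]
  | r + 1, m, hm, Y, h, hY, hhm, hh, q, ρ, hq => by
    have hgl : Measurable fun τ : Fin (r + 1) → β => glue q ρ τ :=
      (measurable_glue q).comp (measurable_const.prodMk measurable_id)
    rw [integral_pi_succ ν
      (f := fun τ => Real.exp (tiltLog ν m Y q (glue q ρ τ)) * h (glue q ρ τ))
      (((measurable_tiltLog ν m hY.meas q).comp hgl).exp.mul (hhm.comp hgl))
      (B := Real.exp ((2 * (r + 1 : ℕ) + 1) * |Real.log C|)) (fun τ => by
        rw [abs_mul, abs_of_pos (Real.exp_pos _)]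
        calc Real.exp _ * |h _| ≤ Real.exp _ * 1 :=
              mul_le_mul_of_nonneg_left (hh _) (Real.exp_pos _).le
          _ ≤ _ := by rw [mul_one]; exact Real.exp_le_exp.2 (tiltLog_le ν hm hY q _))]
    cases q with
    | zero =>
      obtain ⟨_, hpos⟩ := weight_facts ν hm hY
      have hstep : ∀ b, ∫ τ, Real.exp (tiltLog ν m Y 0 (glue 0 ρ (Fin.cons b τ))) *
            h (glue 0 ρ (Fin.cons b τ)) ∂(Measure.pi fun _ : Fin r => ν) =
          genNested ν (Fin.tail m) (fun ω => Y (Fin.cons b ω)) ^ m 0 /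
              (∫ b, genNested ν (Fin.tail m) (fun ω => Y (Fin.cons b ω)) ^ m 0 ∂ν) *
            logD ν (Fin.tail m) (fun ω => Y (Fin.cons b ω)) fun ω => h (Fin.cons b ω) := by
        intro b
        have hb := genNested_mem ν hY.pos hm.tail (hY.cons b).meas (hY.cons b).mem
        have hb0 : 0 < genNested ν (Fin.tail m) fun ω => Y (Fin.cons b ω) :=
          (inv_pos.2 hY.pos).trans_le hb.1
        have ih := tilt_integral hm.tail (h := fun ω => h (Fin.cons b ω)) (hY.cons b)
          (hhm.comp (measurable_cons.comp (measurable_const.prodMk measurable_id)))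
          (fun _ => hh _) 0 (Fin.tail ρ) (Nat.zero_le r)
        rw [condD_zero] at ih
        rw [← ih, ← integral_const_mul]
        refine integral_congr_ae (Eventually.of_forall fun τ => ?_)
        have hg : ∀ {s : ℕ} (a t : Fin s → β), glue 0 a t = t := fun a t => by funext p; simp [glue]
        simp only [hg]
        rw [← mul_assoc]
        congr 1
        have hsplit : tiltLog ν m Y 0 (Fin.cons b τ) =
            m 0 * (Real.log (genNested ν (Fin.tail m) fun ω => Y (Fin.cons b ω)) -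
              Real.log (genNested ν m Y)) +
            tiltLog ν (Fin.tail m) (fun ω => Y (Fin.cons b ω)) 0 τ := by
          simp only [tiltLog, Fin.sum_univ_succ, Nat.zero_le, if_true, Fin.val_zero, Fin.val_succ]
          simp only [cond, Fin.cons_zero, Fin.tail_cons, cond_zero]
          simp only [Fin.tail]
          ring
        rw [hsplit, Real.exp_add]
        congr 1
        show _ = _ / _
        rw [show genNested ν m Y = (∫ b, genNested ν (Fin.tail m)
          (fun ω => Y (Fin.cons b ω)) ^ m 0 ∂ν) ^ (1 / m 0) from rfl, Real.log_rpow hpos,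
          Real.rpow_def_of_pos hb0, eq_div_iff hpos.ne']
        conv_lhs => enter [2]; rw [← Real.exp_log hpos]
        rw [← Real.exp_add]
        congr 1
        field_simp [(hm.pos 0).ne']
        ring
      simp only [hstep, div_mul_eq_mul_div, integral_div]
      rw [condD_zero]
      rfl
    | succ q =>
      have hstep : ∀ b, ∫ τ, Real.exp (tiltLog ν m Y (q + 1) (glue (q + 1) ρ (Fin.cons b τ))) *
            h (glue (q + 1) ρ (Fin.cons b τ)) ∂(Measure.pi fun _ : Fin r => ν) =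
          condD ν m Y h (q + 1) ρ := by
        intro b
        show _ = condD ν (Fin.tail m) (fun ω => Y (Fin.cons (ρ 0) ω))
          (fun ω => h (Fin.cons (ρ 0) ω)) q (Fin.tail ρ)
        rw [← tilt_integral hm.tail (h := fun ω => h (Fin.cons (ρ 0) ω)) (hY.cons (ρ 0))
          (hhm.comp (measurable_cons.comp (measurable_const.prodMk measurable_id)))
          (fun _ => hh _) q (Fin.tail ρ) (Nat.le_of_succ_le_succ hq)]
        refine integral_congr_ae (Eventually.of_forall fun τ => ?_)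
        have hg : glue (q + 1) ρ (Fin.cons b τ) = Fin.cons (ρ 0) (glue q (Fin.tail ρ) τ) := by
          funext p
          refine Fin.cases ?_ (fun i => ?_) p
          · simp [glue]
          · simp [glue, Fin.tail]
        simp only [hg]
        congr 2
        simp only [tiltLog, Fin.sum_univ_succ, Fin.val_zero, Fin.val_succ, Nat.succ_le_succ_iff,
          if_neg (Nat.not_succ_le_zero q), zero_add]
        simp only [cond, Fin.cons_zero, Fin.tail_cons]
        rfl
      simp [hstep]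

end Vale.Agent.P168.Cascade
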