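import Vale.Agent.P168.Cascade.Bounds

/-! One dimensional integrals against Poisson-type weights `t ^ (-α)`. -/

open MeasureTheory Filter Topology Set

noncomputable section

namespace Vale.Agent.P168.Cascade

lemma integral_scale (F : ℝ → ℝ) {c α : ℝ} (hc : 0 < c) (hα : 0 < α) :
    ∫ t in Ioi 0, F (c * t ^ (-α)) = c ^ (1 / α) * ∫ t in Ioi 0, F (t ^ (-α)) := by
  have hb : (0 : ℝ) < (c ^ (1 / α))⁻¹ := inv_pos.2 (Real.rpow_pos_of_pos hc _)
  have h := integral_comp_mul_left_Ioi (fun t => F (t ^ (-α))) 0 hb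
  rw [mul_zero, inv_inv, smul_eq_mul] at h
  rw [← h]
  refine setIntegral_congr_fun measurableSet_Ioi fun t ht => ?_
  rw [Real.mul_rpow hb.le (le_of_lt ht), Real.inv_rpow (Real.rpow_nonneg hc.le _),
    ← Real.rpow_mul hc.le, ← Real.rpow_neg hc.le]
  congr 2
  rw [show -(1 / α * -α) = 1 by field_simp, Real.rpow_one]

/-- The Gamma integral. -/
lemma gamma_int {α j c : ℝ} (hα : 0 < α) (hj : 1 / α < j) (hc : 0 < c) :
    IntegrableOn (fun t => t ^ (-(j * α)) * Real.exp (-(c * t ^ (-α)))) (Ioi 0) ∧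
      ∫ t in Ioi 0, t ^ (-(j * α)) * Real.exp (-(c * t ^ (-α))) =
        1 / α * c ^ (-(j - 1 / α)) * Real.Gamma (j - 1 / α) := by
  have hs : 0 < j - 1 / α := sub_pos.2 hj
  have he : ∫ t in Ioi 0, t ^ (-(j * α)) * Real.exp (-(c * t ^ (-α))) =
      1 / α * c ^ (-(j - 1 / α)) * Real.Gamma (j - 1 / α) := by
    have h := integral_comp_rpow_Ioi
      (fun y => 1 / α * (y ^ (j - 1 / α - 1) * Real.exp (-(c * y)))) (p := -α) (neg_ne_zero.2 hα.ne')
    rw [integral_const_mul, Real.integral_rpow_mul_exp_neg_mul_Ioi hs hc, one_div c,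
      Real.inv_rpow hc.le, ← Real.rpow_neg hc.le] at h
    rw [mul_assoc, ← h]
    refine setIntegral_congr_fun measurableSet_Ioi fun t ht => ?_
    simp only [smul_eq_mul]
    rw [abs_neg, abs_of_pos hα, ← Real.rpow_mul (le_of_lt ht)]
    have : t ^ (-(j * α)) = t ^ (-α - 1) * t ^ (-α * (j - 1 / α - 1)) := by
      rw [← Real.rpow_add ht]
      congr 1
      field_simp
      ring
    rw [this]
    field_simp
  refine ⟨Integrable.of_integral_ne_zero ?_, he⟩
  rw [he]
  exact ne_of_gt (mul_pos (mul_pos (by positivity) (Real.rpow_pos_of_pos hc _))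
    (Real.Gamma_pos_of_pos hs))

lemma integrableOn_one_sub_exp {α c : ℝ} (hα : 1 < α) (hc : 0 ≤ c) :
    IntegrableOn (fun t => 1 - Real.exp (-(c * t ^ (-α)))) (Ioi 0) := by
  refine (integrableOn_dom hc hα).mono' ?_ ?_
  · exact (measurable_const.sub
      ((measurable_const.mul (measurable_id.pow_const _)).neg.exp)).aestronglyMeasurable
  · filter_upwards [ae_restrict_mem measurableSet_Ioi] with t ht
    have hx : 0 ≤ c * t ^ (-α) := mul_nonneg hc (Real.rpow_nonneg (le_of_lt ht) _)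
    have h1 : Real.exp (-(c * t ^ (-α))) ≤ 1 := Real.exp_le_one_iff.2 (by linarith)
    rw [Real.norm_eq_abs, abs_of_nonneg (by linarith)]
    exact le_min (by linarith [Real.exp_pos (-(c * t ^ (-α)))])
      (by linarith [Real.one_sub_le_exp_neg (c * t ^ (-α))])

/-- The integral defining the Laplace exponent. -/
lemma integral_one_sub_exp {α c : ℝ} (hα : 1 < α) (hc : 0 < c) :
    ∫ t in Ioi 0, (1 - Real.exp (-(c * t ^ (-α)))) =
      Real.Gamma (1 - 1 / α) * c ^ (1 / α) := by
  have hα0 : 0 < α := by linarith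
  obtain ⟨hgi, hge⟩ := gamma_int (j := 1) hα0 ((div_lt_one hα0).2 hα) hc
  simp only [one_mul] at hgi hge
  have h1 := integrableOn_one_sub_exp hα hc.le
  set f : ℝ → ℝ := fun t => t * (1 - Real.exp (-(c * t ^ (-α))))
  have habs : ∀ t : ℝ, 0 < t → 0 ≤ f t ∧ f t ≤ t ∧ f t ≤ c * t ^ (1 - α) := by
    intro t ht
    have hx : 0 ≤ c * t ^ (-α) := mul_nonneg hc.le (Real.rpow_nonneg ht.le _)
    have hle : Real.exp (-(c * t ^ (-α))) ≤ 1 := Real.exp_le_one_iff.2 (by linarith)
    refine ⟨mul_nonneg ht.le (by linarith), ?_, ?_⟩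
    · exact mul_le_of_le_one_right ht.le (by linarith [Real.exp_pos (-(c * t ^ (-α)))])
    · calc f t ≤ t * (c * t ^ (-α)) :=
          mul_le_mul_of_nonneg_left (by linarith [Real.one_sub_le_exp_neg (c * t ^ (-α))]) ht.le
        _ = c * t ^ (1 - α) := by
          rw [sub_eq_add_neg, Real.rpow_add ht, Real.rpow_one]; ring
  have hcont : ContinuousWithinAt f (Ici 0) 0 := by
    show Tendsto f (𝓝[Ici 0] 0) (𝓝 (f 0))
    rw [show f 0 = 0 from zero_mul _]
    refine tendsto_of_tendsto_of_tendsto_of_le_of_le' tendsto_const_nhds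
      (tendsto_nhdsWithin_of_tendsto_nhds (tendsto_id (x := 𝓝 (0 : ℝ)))) ?_ ?_
    all_goals
      filter_upwards [self_mem_nhdsWithin] with t ht
      rcases (show (0 : ℝ) ≤ t from ht).eq_or_lt with rfl | h
      · simp [f]
      · first | exact (habs t h).1 | exact (habs t h).2.1
  have hlim : Tendsto f atTop (𝓝 0) := by
    refine tendsto_of_tendsto_of_tendsto_of_le_of_le' tendsto_const_nhds
      (by simpa using ((tendsto_rpow_neg_atTop (y := α - 1) (by linarith)).const_mul c)) ?_ ?_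
    · filter_upwards [eventually_gt_atTop 0] with t ht using (habs t ht).1
    · filter_upwards [eventually_gt_atTop 0] with t ht
      simpa using (habs t ht).2.2
  have hd : ∀ t ∈ Ioi (0 : ℝ), HasDerivAt f
      ((1 - Real.exp (-(c * t ^ (-α)))) -
        α * c * (t ^ (-α) * Real.exp (-(c * t ^ (-α))))) t := by
    intro t ht
    have h := (hasDerivAt_id t).mul
      ((((Real.hasDerivAt_rpow_const (p := -α) (Or.inl (ne_of_gt ht))).const_mul c).neg.exp).const_sub 1)
    refine h.congr_deriv ?_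
    simp only [id]
    have : t * t ^ (-α - 1) = t ^ (-α) := by
      rw [Real.rpow_sub ht, Real.rpow_one, mul_div_cancel₀ _ (ne_of_gt ht)]
    linear_combination (-(c * α * Real.exp (-(c * t ^ (-α))))) * this
  have hF := integral_Ioi_of_hasDerivAt_of_tendsto hcont hd (h1.sub (hgi.const_mul _)) hlim
  rw [integral_sub h1 (hgi.const_mul _), integral_const_mul, hge,
    show f 0 = 0 from zero_mul _] at hF
  have hcc : c * c ^ (-(1 - 1 / α)) = c ^ (1 / α) := by
    calc c * c ^ (-(1 - 1 / α)) = c ^ (1 : ℝ) * c ^ (-(1 - 1 / α)) := by rw [Real.rpow_one]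
      _ = c ^ (1 / α) := by rw [← Real.rpow_add hc]; congr 1; ring
  have : α * c * (1 / α * c ^ (-(1 - 1 / α)) * Real.Gamma (1 - 1 / α))
      = Real.Gamma (1 - 1 / α) * c ^ (1 / α) := by
    rw [← hcc]; field_simp
  linarith

end Vale.Agent.P168.Cascade
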