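import Vale.Agent.P168.Cascade.Integrals

/-! The limit of the Laplace transform of a cascade sum. -/

open MeasureTheory ProbabilityTheory Filter Topology Set
open scoped BigOperators NNReal ENNReal

noncomputable section

namespace Vale.Agent.P168.Cascade

open Vale.Agent.P168

/-- The constant in the limit of the Laplace exponent. -/
def kappa : {r : ℕ} → (Fin r → ℝ) → ℝ
  | 0, _ => 1
  | _ + 1, m =>
    ∫ t in Ioi 0, (1 - Real.exp (-(kappa (Fin.tail m) * t ^ (-(top (Fin.tail m) / m 0)))))

lemma kappa_pos : ∀ {r : ℕ} {m : Fin r → ℝ}, Exps m → 0 < kappa m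
  | 0, _, _ => one_pos
  | r + 1, m, hm => by
    have hk := kappa_pos hm.tail
    show 0 < ∫ t in Ioi 0, _
    rw [integral_one_sub_exp hm.one_lt_ratio hk]
    exact mul_pos (Real.Gamma_pos_of_pos (sub_pos.2
      ((div_lt_one (by linarith [hm.one_lt_ratio])).2 hm.one_lt_ratio)))
      (Real.rpow_pos_of_pos hk _)

lemma kappa_succ {r : ℕ} {m : Fin (r + 1) → ℝ} (hm : Exps m) :
    kappa m = Real.Gamma (1 - m 0 / top (Fin.tail m)) *
      kappa (Fin.tail m) ^ (m 0 / top (Fin.tail m)) := by
  show ∫ t in Ioi 0, _ = _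
  rw [integral_one_sub_exp hm.one_lt_ratio (kappa_pos hm.tail), one_div_div]

variable {β : Type} [MeasurableSpace β] (ν : Measure β) [IsProbabilityMeasure ν]

lemma measurable_genNested : ∀ {r : ℕ} (m : Fin r → ℝ) {δ : Type} [MeasurableSpace δ]
    {Y : δ → (Fin r → β) → ℝ}, Measurable (Function.uncurry Y) →
    Measurable fun d => genNested ν m (Y d)
  | 0, _, _, _, _, hY => hY.comp (measurable_id.prodMk measurable_const)
  | r + 1, m, δ, _, Y, hY => by
    have h : Measurable fun p : δ × β =>
        genNested ν (Fin.tail m) fun ω => Y p.1 (Fin.cons p.2 ω) :=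
      measurable_genNested (Fin.tail m) (Y := fun (p : δ × β) ω => Y p.1 (Fin.cons p.2 ω))
        (hY.comp ((measurable_fst.comp measurable_fst).prodMk (measurable_cons.comp
          ((measurable_snd.comp measurable_fst).prodMk measurable_snd))))
    exact ((h.pow_const (m 0)).stronglyMeasurable.integral_prod_right').measurable.pow_const _

lemma measurable_genNested_cons {r : ℕ} (m : Fin r → ℝ) {Y : (Fin (r + 1) → β) → ℝ}
    (hY : Measurable Y) : Measurable fun b => genNested ν m fun ω => Y (Fin.cons b ω) :=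
  measurable_genNested ν m (Y := fun b ω => Y (Fin.cons b ω)) (hY.comp measurable_cons)

lemma genNested_mem {C : ℝ} (hC : 0 < C) : ∀ {r : ℕ} {m : Fin r → ℝ}, Exps m →
    ∀ {Y : (Fin r → β) → ℝ}, Measurable Y → (∀ ω, C⁻¹ ≤ Y ω ∧ Y ω ≤ C) →
    C⁻¹ ≤ genNested ν m Y ∧ genNested ν m Y ≤ C
  | 0, _, _, _, _, h => h _
  | r + 1, m, hm, Y, hY, h => by
    have hp := hm.pos 0
    have hG := fun b => genNested_mem hC hm.tail (Y := fun ω => Y (Fin.cons b ω))
      (hY.comp (measurable_cons.comp (measurable_const.prodMk measurable_id))) (fun ω => h _)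
    have hb := fun b => And.intro (Real.rpow_le_rpow (inv_nonneg.2 hC.le) (hG b).1 hp.le)
      (Real.rpow_le_rpow ((inv_nonneg.2 hC.le).trans (hG b).1) (hG b).2 hp.le)
    have hi : Integrable (fun b => genNested ν (Fin.tail m) (fun ω => Y (Fin.cons b ω)) ^ m 0) ν :=
      Integrable.of_bound ((measurable_genNested_cons ν _ hY).pow_const _).aestronglyMeasurable
        (C ^ m 0) (Eventually.of_forall fun b => by
          rw [Real.norm_eq_abs, abs_of_nonneg ((Real.rpow_nonneg (inv_nonneg.2 hC.le) _).trans
            (hb b).1)]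
          exact (hb b).2)
    have h1 : C⁻¹ ^ m 0 ≤ ∫ b, genNested ν (Fin.tail m) (fun ω => Y (Fin.cons b ω)) ^ m 0 ∂ν := by
      simpa using integral_mono (integrable_const _) hi fun b => (hb b).1
    have h2 : (∫ b, genNested ν (Fin.tail m) (fun ω => Y (Fin.cons b ω)) ^ m 0 ∂ν) ≤ C ^ m 0 := by
      simpa using integral_mono hi (integrable_const _) fun b => (hb b).2
    have hroot : ∀ x : ℝ, 0 ≤ x → (x ^ m 0) ^ (1 / m 0) = x := fun x hx => by
      rw [← Real.rpow_mul hx, mul_one_div_cancel hp.ne', Real.rpow_one]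
    show C⁻¹ ≤ _ ^ (1 / m 0) ∧ _ ^ (1 / m 0) ≤ C
    constructor
    · have := Real.rpow_le_rpow (by positivity) h1 (one_div_pos.2 hp).le
      rwa [hroot _ (inv_nonneg.2 hC.le)] at this
    · have := Real.rpow_le_rpow ((by positivity : (0 : ℝ) ≤ C⁻¹ ^ m 0).trans h1) h2
        (one_div_pos.2 hp).le
      rwa [hroot _ hC.le] at this

/-- Limit of the Laplace transform. -/
lemma phi_tendsto {C : ℝ} (hC : 0 < C) : ∀ {r : ℕ} {m : Fin r → ℝ}, Exps m →
    ∀ {Y : (Fin r → β) → ℝ}, Measurable Y → (∀ ω, C⁻¹ ≤ Y ω ∧ Y ω ≤ C) → ∀ {v : ℝ}, 0 ≤ v →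
    CLim r (fun n => phi ν m n Y v)
      (Real.exp (-(kappa m * (genNested ν m Y * v) ^ top m)))
  | 0, m, _, Y, _, _, v, _ => by
    show phi ν m Fin.elim0 Y v = Real.exp (-(1 * (Y Fin.elim0 * v) ^ (1 : ℝ)))
    rw [phi_zero, one_mul, Real.rpow_one, mul_comm]
  | r + 1, m, hm, Y, hY, hYb, v, hv => by
    have hY0 : ∀ ω, 0 ≤ Y ω := fun ω => (inv_nonneg.2 hC.le).trans (hYb ω).1
    have hp : 0 < m 0 := hm.pos 0
    rcases hv.eq_or_lt with rfl | hv0
    · rw [mul_zero, show top m = m 0 from rfl, Real.zero_rpow hp.ne', mul_zero, neg_zero,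
        Real.exp_zero]
      exact (clim_const (1 : ℝ)).congr fun n _ => (phi_at_zero ν m n Y).symm
    set α := top (Fin.tail m) / m 0 with hα'
    have hα : 1 < α := hm.one_lt_ratio
    set m' := top (Fin.tail m)
    have hm' : 0 < m' := hm.tail.top_pos
    set κ' := kappa (Fin.tail m)
    have hκ' : 0 < κ' := kappa_pos hm.tail
    set G : β → ℝ := fun b => genNested ν (Fin.tail m) fun ω => Y (Fin.cons b ω)
    have hGm : Measurable G := measurable_genNested_cons ν _ hY
    have hGb : ∀ b, C⁻¹ ≤ G b ∧ G b ≤ C := fun b => genNested_mem ν hC hm.tail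
      (hY.comp (measurable_cons.comp (measurable_const.prodMk measurable_id))) fun ω => hYb _
    have hG0 : ∀ b, 0 < G b := fun b => (inv_pos.2 hC).trans_le (hGb b).1
    set f : ℝ → β → ℝ := fun t b => 1 - Real.exp (-(κ' * (G b * v) ^ m' * t ^ (-α))) with hf
    have hfm : Measurable (Function.uncurry f) :=
      measurable_const.sub (((measurable_const.mul
        (((hGm.comp measurable_snd).mul_const v).pow_const _)).mul
          (measurable_fst.pow_const _)).neg.exp)
    have hf0 : ∀ t b, 0 ≤ t → 0 ≤ f t b ∧ f t b ≤ dom (κ' * (C * v) ^ m') α t := by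
      intro t b ht
      have hx : 0 ≤ κ' * (G b * v) ^ m' * t ^ (-α) :=
        mul_nonneg (mul_nonneg hκ'.le (Real.rpow_nonneg (mul_nonneg (hG0 b).le hv) _))
          (Real.rpow_nonneg ht _)
      refine ⟨sub_nonneg.2 (Real.exp_le_one_iff.2 (by linarith)), le_min
        (by simp only [hf]; linarith [Real.exp_pos (-(κ' * (G b * v) ^ m' * t ^ (-α)))]) ?_⟩
      calc f t b ≤ κ' * (G b * v) ^ m' * t ^ (-α) := by
            simp only [hf]; linarith [Real.one_sub_le_exp_neg (κ' * (G b * v) ^ m' * t ^ (-α))]
        _ ≤ κ' * (C * v) ^ m' * t ^ (-α) := by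
          refine mul_le_mul_of_nonneg_right (mul_le_mul_of_nonneg_left ?_ hκ'.le)
            (Real.rpow_nonneg ht _)
          exact Real.rpow_le_rpow (mul_nonneg (hG0 b).le hv)
              (mul_le_mul_of_nonneg_right (hGb b).2 hv) hm'.le
    -- pointwise limit of the integrand
    have hpt : ∀ t, 0 < t → CLim r (fun n => 1 - psi ν m n Y v t) (∫ b, f t b ∂ν) := by
      intro t ht
      have hw : 0 ≤ v * wt (m 0) t := mul_nonneg hv (wt_nonneg ht.le)
      have h := (clim_integral (μ := ν)
        (F := fun n b => phi ν (Fin.tail m) n (fun ω => Y (Fin.cons b ω)) (v * wt (m 0) t))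
        (L := fun b => Real.exp (-(κ' * (G b * (v * wt (m 0) t)) ^ m')))
        (bd := fun _ => (1 : ℝ)) (integrable_const _) (fun n _ => ⟨?_, ?_⟩)
        (Eventually.of_forall fun b => phi_tendsto hC hm.tail
          (hY.comp (measurable_cons.comp (measurable_const.prodMk measurable_id)))
          (fun ω => hYb _) hw)).2.2
      · have := (clim_const (r := r) (1 : ℝ)).sub h
        refine cast (congrArg _ ?_) this
        simp only [hf]
        rw [integral_sub (integrable_const _)]
        · simp only [integral_const, probReal_univ, one_smul]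
          congr 1
          refine integral_congr_ae (Eventually.of_forall fun b => ?_)
          simp only
          congr 2
          rw [← mul_assoc (G b), Real.mul_rpow (mul_nonneg (hG0 b).le hv) (wt_nonneg ht.le),
            wt, ← Real.rpow_mul ht.le, show -(1 / m 0) * m' = -α by rw [hα']; ring, mul_assoc]
        · refine Integrable.of_bound ((((hGm.mul_const v).pow_const m').const_mul κ').mul_const
            (t ^ (-α))).neg.exp.aestronglyMeasurable 1 (Eventually.of_forall fun b => ?_)
          rw [Real.norm_eq_abs, abs_of_pos (Real.exp_pos _), Real.exp_le_one_iff, neg_nonpos]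
          exact mul_nonneg (mul_nonneg hκ'.le (Real.rpow_nonneg (mul_nonneg (hG0 b).le hv) _))
            (Real.rpow_nonneg ht.le _)
      · exact (measurable_phi ν (Fin.tail m) n (Y := fun b ω => Y (Fin.cons b ω))
          (hY.comp measurable_cons) measurable_const).aestronglyMeasurable
      · exact Eventually.of_forall fun b => by
          rw [abs_of_nonneg (phi_nonneg ν _ _ _ _)]
          exact phi_le_one ν _ _ (fun ω => hY0 _) hw
    set g : ℝ → ℝ := fun t => ∫ b, f t b ∂ν with hg
    -- the defect for fixed outer branching number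
    have hk : ∀ k : ℕ, CLim r (fun n => defect ν m (Fin.cons k n) Y v)
        (∫ t in Ioc (0 : ℝ) k, g t) := by
      intro k
      refine ((clim_integral (μ := volume.restrict (Ioc (0 : ℝ) k))
        (F := fun n t => 1 - psi ν m n Y v t) (L := g) (bd := fun _ => (1 : ℝ))
        (integrableOn_const_Ioc _ _ _) (fun n _ => ⟨?_, ?_⟩) ?_).2.2).congr fun n _ => rfl
      · exact ((measurable_psi ν m n hY v).const_sub 1).aestronglyMeasurable
      · filter_upwards [ae_restrict_mem measurableSet_Ioc] with t ht
        rw [abs_of_nonneg (sub_nonneg.2 (psi_le_one ν m n hY0 hv ht.1.le))]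
        linarith [psi_nonneg ν m n Y v t]
      · filter_upwards [ae_restrict_mem measurableSet_Ioc] with t ht using hpt t ht.1
    -- integrability on the half line
    have hdom := integrableOn_dom (c := κ' * (C * v) ^ m') (by positivity) hα
    have hint : Integrable (Function.uncurry f) ((volume.restrict (Ioi (0 : ℝ))).prod ν) := by
      refine (hdom.integrable.comp_fst ν).mono' hfm.aestronglyMeasurable ?_
      filter_upwards [Measure.quasiMeasurePreserving_fst.ae (ae_restrict_mem measurableSet_Ioi)]
        with p hp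
      rw [Real.norm_eq_abs, Function.uncurry, abs_of_nonneg (hf0 p.1 p.2 (le_of_lt hp)).1]
      exact (hf0 p.1 p.2 (le_of_lt hp)).2
    have hval : ∫ t in Ioi 0, g t = kappa m * (genNested ν m Y * v) ^ m 0 := by
      rw [hg, integral_integral_swap hint]
      have hb : ∀ b, ∫ t in Ioi 0, f t b = kappa m * v ^ m 0 * G b ^ m 0 := by
        intro b
        have hc : 0 < (G b * v) ^ m' := Real.rpow_pos_of_pos (mul_pos (hG0 b) hv0) _
        have hs := integral_scale (fun x => 1 - Real.exp (-(κ' * x))) (α := α) hc (by linarith)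
        simp only [hf, mul_assoc] at hs ⊢
        rw [hs, hα', one_div_div, ← Real.rpow_mul (mul_nonneg (hG0 b).le hv),
          mul_div_cancel₀ _ hm'.ne', Real.mul_rpow (hG0 b).le hv]
        show _ = kappa m * _
        simp only [kappa]
        ring
      simp only [hb]
      rw [integral_const_mul]
      have hI : 0 ≤ ∫ b, G b ^ m 0 ∂ν := integral_nonneg fun b => Real.rpow_nonneg (hG0 b).le _
      show _ = kappa m * ((∫ b, G b ^ m 0 ∂ν) ^ (1 / m 0) * v) ^ m 0
      rw [Real.mul_rpow (Real.rpow_nonneg hI _) hv, ← Real.rpow_mul hI,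
        one_div_mul_cancel hp.ne', Real.rpow_one]
      ring
    have hlim : Tendsto (fun k : ℕ => ∫ t in Ioc (0 : ℝ) k, g t) atTop
        (𝓝 (∫ t in Ioi 0, g t)) :=
      (intervalIntegral_tendsto_integral_Ioi (μ := volume) (0 : ℝ) hint.integral_prod_left
        tendsto_natCast_atTop_atTop).congr fun k =>
        intervalIntegral.integral_of_le (Nat.cast_nonneg k)
    refine ⟨fun k => (1 - (∫ t in Ioc (0 : ℝ) k, g t) / k) ^ k, fun k hk0 => ?_, ?_⟩
    · exact ((hk k).map (φ := fun x : ℝ => (1 - x / k) ^ k) (by fun_prop)).congr fun n hn =>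
        (phi_eq_defect ν m (Fin.cons k n) (by simpa using hk0) hY hY0 hv).1.symm.trans rfl
    · show Tendsto _ _ (𝓝 (Real.exp (-(kappa m * (genNested ν m Y * v) ^ m 0))))
      rw [← hval]
      have h := Real.tendsto_one_add_pow_exp_of_tendsto
        (g := fun k : ℕ => -((∫ t in Ioc (0 : ℝ) k, g t) / k)) (hlim.neg.congr' ?_)
      · simpa [sub_eq_add_neg] using h
      · filter_upwards [eventually_gt_atTop 0] with k hk0
        have : (0 : ℝ) < k := by exact_mod_cast hk0
        field_simp

end Vale.Agent.P168.Cascade
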